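import Vale.Agent.P181.T6.Asm6
import Vale.Agent.P181.H539.Growth
import Vale.Agent.P181.H921.Num

set_option autoImplicit false

/-! # P181, T7: the numerics

`num7`: `(L+1)^(aR) C(D+N-1,N-1) ≤ exp ((1+η) N) (1+D/N)^(N-a)` as soon as `R ≤ a^θ`,
`N ≥ a^(1+2θ)`, `L, D ≤ a^3`; `final7`: the comparison with the upper bound. -/

namespace Vale.Agent.P181.H403

open Filter Real
open Vale.Agent.P181.T4 Vale.Agent.P181.T6 Vale.Agent.P181.H280 Vale.Agent.P181.H463

/-- `C(D+N-1,N-1) ≤ e^N (1+D/N)^N`. -/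
lemma choose_le7 (D N : ℕ) (hN : 1 ≤ N) :
    (((D + N - 1).choose (N - 1) : ℕ) : ℝ) ≤ Real.exp N * (1 + (D : ℝ) / N) ^ N := by
  have h1 : (D + N - 1).choose (N - 1) ≤ (D + N).choose N := by
    calc (D + N - 1).choose (N - 1) = (D + N - 1).choose D :=
          Nat.choose_symm_of_eq_add (by omega)
      _ ≤ (D + N).choose D := Nat.choose_le_choose _ (by omega)
      _ = (D + N).choose N := Nat.choose_symm_of_eq_add (by omega)
  have h2 : (((D + N - 1).choose (N - 1) : ℕ) : ℝ) ≤ (((D + N).choose N : ℕ) : ℝ) := by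
    exact_mod_cast h1
  have h3 : (((D + N).choose N : ℕ) : ℝ) ≤ ((D + N : ℕ) : ℝ) ^ N / (N.factorial : ℝ) :=
    Nat.choose_le_pow_div N (D + N)
  have h4 : (N : ℝ) ^ N / (N.factorial : ℝ) ≤ Real.exp N :=
    Real.pow_div_factorial_le_exp (N : ℝ) (by positivity) N
  have hN0 : (0 : ℝ) < N := by exact_mod_cast hN
  have h5 : ((D + N : ℕ) : ℝ) ^ N / (N.factorial : ℝ)
      = (1 + (D : ℝ) / N) ^ N * ((N : ℝ) ^ N / (N.factorial : ℝ)) := by
    rw [← mul_div_assoc, ← mul_pow]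
    congr 2
    push_cast
    field_simp
    ring
  refine h2.trans (h3.trans ?_)
  rw [h5, mul_comm]
  gcongr

/-- the deterministic core. -/
lemma core7 {a R N D L : ℕ} {η : ℝ} (ha : 3 ≤ a) (haN : a ≤ N)
    (hL : L ≤ a ^ 3) (hD : D ≤ a ^ 3)
    (hN : 4 * Real.log a * (a * R + a) ≤ η * N) :
    ((L : ℝ) + 1) ^ (a * R) * ((D + N - 1).choose (N - 1) : ℝ) ≤
      Real.exp ((1 + η) * N) * (1 + (D : ℝ) / N) ^ (N - a) := by
  have ha' : (3 : ℝ) ≤ a := by exact_mod_cast ha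
  have ha0 : (0 : ℝ) < a := by linarith
  have hN1 : 1 ≤ N := by omega
  have hN0 : (1 : ℝ) ≤ N := by exact_mod_cast hN1
  have e3 : (a : ℝ) ^ 3 + 1 ≤ (a : ℝ) ^ 4 := by
    have : (a : ℝ) ^ 4 = a * (a : ℝ) ^ 3 := by ring
    rw [this]
    have h27 : (27 : ℝ) ≤ (a : ℝ) ^ 3 := by
      calc (27 : ℝ) = 3 ^ 3 := by norm_num
        _ ≤ (a : ℝ) ^ 3 := by gcongr
    nlinarith
  have e4 : (a : ℝ) ^ 4 = Real.exp (4 * Real.log a) := by
    rw [mul_comm, Real.exp_mul, Real.exp_log ha0]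
    norm_cast
  have hL' : (L : ℝ) + 1 ≤ Real.exp (4 * Real.log a) := by
    rw [← e4]
    have : (L : ℝ) ≤ (a : ℝ) ^ 3 := by exact_mod_cast hL
    linarith
  have hD' : 1 + (D : ℝ) / N ≤ Real.exp (4 * Real.log a) := by
    rw [← e4]
    have h1 : (D : ℝ) ≤ (a : ℝ) ^ 3 := by exact_mod_cast hD
    have h2 : (D : ℝ) / N ≤ D := div_le_self (by positivity) hN0
    linarith
  have q1 : ((L : ℝ) + 1) ^ (a * R) ≤ Real.exp (4 * Real.log a * (a * R)) := by
    calc ((L : ℝ) + 1) ^ (a * R) ≤ (Real.exp (4 * Real.log a)) ^ (a * R) := by gcongr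
      _ = _ := by
        rw [← Real.exp_nat_mul]
        congr 1
        push_cast
        ring
  have q2 : (1 + (D : ℝ) / N) ^ a ≤ Real.exp (4 * Real.log a * a) := by
    calc (1 + (D : ℝ) / N) ^ a ≤ (Real.exp (4 * Real.log a)) ^ a := by gcongr
      _ = _ := by
        rw [← Real.exp_nat_mul]
        congr 1
        ring
  have q3 := choose_le7 D N hN1
  have e5 : (1 + (D : ℝ) / N) ^ N = (1 + (D : ℝ) / N) ^ a * (1 + (D : ℝ) / N) ^ (N - a) := by
    rw [← pow_add]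
    congr 1
    omega
  calc ((L : ℝ) + 1) ^ (a * R) * ((D + N - 1).choose (N - 1) : ℝ)
      ≤ Real.exp (4 * Real.log a * (a * R)) * (Real.exp N *
        (Real.exp (4 * Real.log a * a) * (1 + (D : ℝ) / N) ^ (N - a))) := by
        rw [e5] at q3
        refine mul_le_mul q1 (q3.trans ?_) (by positivity) (by positivity)
        gcongr
    _ = Real.exp (4 * Real.log a * (a * R + a) + N) * (1 + (D : ℝ) / N) ^ (N - a) := by
        rw [show 4 * Real.log a * ((a : ℝ) * R + a) + N = 4 * Real.log a * (a * R) + (N +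
          4 * Real.log a * a) by ring, Real.exp_add, Real.exp_add]
        ring
    _ ≤ _ := by
        have : 4 * Real.log a * ((a : ℝ) * R + a) + N ≤ (1 + η) * N := by linarith
        gcongr

/-- **[NUM7]** -/
theorem num7 (th η : ℝ) (hth : 0 < th) (hη : 0 < η) : ∀ᶠ a : ℕ in atTop, 3 ≤ a ∧
    ∀ R N D L : ℕ, (R : ℝ) ≤ (a : ℝ) ^ th → (a : ℝ) ^ (1 + 2 * th) ≤ N → L ≤ a ^ 3 →
      D ≤ a ^ 3 → a ≤ N ∧
      ((L : ℝ) + 1) ^ (a * R) * ((D + N - 1).choose (N - 1) : ℝ) ≤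
        Real.exp ((1 + η) * N) * (1 + (D : ℝ) / N) ^ (N - a) := by
  filter_upwards [Vale.Agent.P181.H921.ev_log (8 / η) th hth, eventually_ge_atTop 3] with a h1 ha
  refine ⟨ha, fun R N D L hR hN hL hD => ?_⟩
  have ha' : (3 : ℝ) ≤ a := by exact_mod_cast ha
  have ha0 : (0 : ℝ) < a := by linarith
  have hl1 : 1 ≤ Real.log a := by
    rw [Real.le_log_iff_exp_le ha0]
    have := Real.exp_one_lt_d9
    linarith
  have hth1 : (1 : ℝ) ≤ (a : ℝ) ^ th := Real.one_le_rpow (by linarith) hth.le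
  have h1' : 8 * Real.log a ≤ η * (a : ℝ) ^ th := by
    have h2 : 8 / η * Real.log a ≤ (a : ℝ) ^ th := by
      refine le_trans ?_ h1
      have h8 : 0 < 8 / η := by positivity
      apply mul_le_mul_of_nonneg_left _ h8.le
      rw [sq]
      exact le_mul_of_one_le_left (by linarith) hl1
    rw [div_mul_eq_mul_div, div_le_iff₀ hη] at h2
    linarith
  have hexp : (a : ℝ) ^ (1 + 2 * th) = a * ((a : ℝ) ^ th * (a : ℝ) ^ th) := by
    rw [Real.rpow_add ha0, Real.rpow_one, two_mul, Real.rpow_add ha0]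
  rw [hexp] at hN
  have haN : a ≤ N := by
    have : (a : ℝ) ≤ N := by
      refine le_trans ?_ hN
      calc (a : ℝ) = a * (1 * 1) := by ring
        _ ≤ _ := by gcongr
    exact_mod_cast this
  refine ⟨haN, core7 ha haN hL hD ?_⟩
  calc 4 * Real.log a * ((a : ℝ) * R + a) ≤ 4 * Real.log a * (a * (a : ℝ) ^ th + a * (a : ℝ) ^ th)
        := by
        gcongr
        calc (a : ℝ) = a * 1 := by ring
          _ ≤ _ := by gcongr
    _ = 8 * Real.log a * (a * (a : ℝ) ^ th) := by ring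
    _ ≤ η * (a : ℝ) ^ th * (a * (a : ℝ) ^ th) := by gcongr
    _ = η * (a * ((a : ℝ) ^ th * (a : ℝ) ^ th)) := by ring
    _ ≤ η * N := by gcongr

/-- `1 + D / N ≤ ∏ (1 + lam i / N)` -/
lemma one_add_sum_le_prod {n N : ℕ} (lam : Fin n → ℕ) :
    1 + ((∑ i, lam i : ℕ) : ℝ) / N ≤ ∏ i, (1 + (lam i : ℝ) / N) := by
  rw [Nat.cast_sum, Finset.sum_div]
  have key : ∀ s : Finset (Fin n), 1 + ∑ i ∈ s, (lam i : ℝ) / N ≤
      ∏ i ∈ s, (1 + (lam i : ℝ) / N) := by
    intro s
    induction s using Finset.induction_on with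
    | empty => simp
    | insert i s hi ih =>
      rw [Finset.sum_insert hi, Finset.prod_insert hi]
      have h1 : (0 : ℝ) ≤ (lam i : ℝ) / N := by positivity
      have h2 : (0 : ℝ) ≤ ∑ i ∈ s, (lam i : ℝ) / N := Finset.sum_nonneg fun i _ => by positivity
      calc 1 + ((lam i : ℝ) / N + ∑ i ∈ s, (lam i : ℝ) / N)
          ≤ (1 + (lam i : ℝ) / N) * (1 + ∑ i ∈ s, (lam i : ℝ) / N) := by nlinarith
        _ ≤ _ := by gcongr
  exact key Finset.univ

/-- `lam` non-increasing of sum `S` : every row is at most `S`. -/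
lemma ex_le_sum {n : ℕ} (lam : Fin n → ℕ) : ex lam 0 ≤ ∑ i, lam i := by
  unfold ex
  split_ifs with h
  · exact Finset.single_le_sum (f := lam) (fun i _ => Nat.zero_le _) (Finset.mem_univ _)
  · exact Nat.zero_le _

/-- **final comparison**: `U` distinguishable types of the `N` letters. -/
theorem final7 (hU : UpStmt) {a b R N U : ℕ} {η : ℝ} (hR : R ≤ a) {lam : Fin a → ℕ}
    (ha : 0 < a) (hlam : Antitone lam) (haN : a ≤ N)
    (hnum : ((ex lam 0 : ℝ) + 1) ^ (a * R) *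
      (((∑ i, low R lam i) + N - 1).choose (N - 1) : ℝ) ≤
      Real.exp ((1 + η) * N) * (1 + ((∑ i, low R lam i : ℕ) : ℝ) / N) ^ (N - a))
    (hUb : Real.exp ((1 + η) * N) ≤ U)
    (hC : U * gt (a - R) N (low R lam) ≤
      ((∑ i, low R lam i) + N - 1).choose (N - 1) * plethMult b a a lam) :
    plethMult a b a lam ≤ plethMult b a a lam := by
  have hle : ∀ i : ℕ, ex lam i ≤ ex lam 0 := fun i => ex_anti hlam (Nat.zero_le i)
  have h1 := plethMult_le_pow (a := a) (b := b) (c := a) (R := R) (m := a - R) (by omega) lam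
    (ex lam 0) (fun i _ => by
      have := hle i
      rwa [ex_of_lt lam i.2] at this)
  have h2 : (fun i : Fin (a - R) => lam ⟨R + i, by have := i.isLt; omega⟩) = low R lam := by
    funext i
    have := i.isLt
    rw [low, ex_of_lt lam (by omega)]
  rw [h2] at h1
  have h3 := hU (a - R) a (low R lam) (low_anti hlam R)
  have h4 := Vale.Agent.P181.H539.gt_growth_prod (n := a - R) (a := a) (N := N) (by omega) ha haN
    (lam := low R lam) (low_anti hlam R)
  set D : ℕ := ∑ i, low R lam i with hD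
  set x : ℝ := (1 + ((D : ℕ) : ℝ) / N) ^ (N - a) with hx
  set G : ℝ := (gt (a - R) a (low R lam) : ℝ) with hG
  set G' : ℝ := (gt (a - R) N (low R lam) : ℝ) with hG'
  set Cc : ℝ := ((D + N - 1).choose (N - 1) : ℝ) with hCc
  set P : ℝ := (plethMult b a a lam : ℝ) with hP
  set E : ℝ := Real.exp ((1 + η) * N) with hE
  have hE0 : 0 < E := Real.exp_pos _
  have hx0 : 0 < x := by positivity
  have hGnn : 0 ≤ G := Nat.cast_nonneg _
  have hG'nn : 0 ≤ G' := Nat.cast_nonneg _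
  have h5 : (plethMult a b a lam : ℝ) ≤ ((ex lam 0 : ℝ) + 1) ^ (a * R) * G := by
    have h6 : plethMult a b a lam ≤ (ex lam 0 + 1) ^ (R * a) * gt (a - R) a (low R lam) :=
      h1.trans (Nat.mul_le_mul_left _ h3)
    have h7 : (plethMult a b a lam : ℝ) ≤
        (((ex lam 0 + 1) ^ (R * a) * gt (a - R) a (low R lam) : ℕ) : ℝ) :=
      by exact_mod_cast h6
    rw [mul_comm R a] at h7
    push_cast at h7
    exact h7
  have h8 : U * G' ≤ Cc * P := by
    rw [hG', hCc, hP]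
    exact_mod_cast hC
  have h4' : G * x ≤ G' := by
    refine le_trans ?_ h4
    have h6 : x ≤ (∏ i, (1 + (low R lam i : ℝ) / N)) ^ (N - a) :=
      pow_le_pow_left₀ (by positivity) (one_add_sum_le_prod _) _
    exact mul_le_mul_of_nonneg_left h6 hGnn
  have hP0 : 0 ≤ P := Nat.cast_nonneg _
  have h9 : (plethMult a b a lam : ℝ) * (x * E) ≤ P * (x * E) := by
    calc (plethMult a b a lam : ℝ) * (x * E)
        ≤ (((ex lam 0 : ℝ) + 1) ^ (a * R) * G) * (x * E) := by gcongr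
      _ = ((ex lam 0 : ℝ) + 1) ^ (a * R) * ((G * x) * E) := by ring
      _ ≤ ((ex lam 0 : ℝ) + 1) ^ (a * R) * (G' * U) := by gcongr
      _ = ((ex lam 0 : ℝ) + 1) ^ (a * R) * (U * G') := by ring
      _ ≤ ((ex lam 0 : ℝ) + 1) ^ (a * R) * (Cc * P) := by gcongr
      _ = (((ex lam 0 : ℝ) + 1) ^ (a * R) * Cc) * P := by ring
      _ ≤ (E * x) * P := by gcongr
      _ = P * (x * E) := by ring
  have h10 : (plethMult a b a lam : ℝ) ≤ (plethMult b a a lam : ℝ) :=
    le_of_mul_le_mul_right h9 (by positivity)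
  exact_mod_cast h10

/-- **[NUM7] with the comparison.** -/
theorem num7_final (hU : UpStmt) (th η : ℝ) (hth : 0 < th) (hth1 : th ≤ 1) (hη : 0 < η) :
    ∀ᶠ a : ℕ in atTop, ∀ (b R N U : ℕ) (lam : Fin a → ℕ), b ≤ a ^ 2 → (R : ℝ) ≤ (a : ℝ) ^ th →
      (a : ℝ) ^ (1 + 2 * th) ≤ N → Antitone lam → ∑ i, lam i = a * b →
      Real.exp ((1 + η) * N) ≤ U →
      U * gt (a - R) N (low R lam) ≤
        ((∑ i, low R lam i) + N - 1).choose (N - 1) * plethMult b a a lam →
      plethMult a b a lam ≤ plethMult b a a lam := by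
  filter_upwards [num7 th η hth hη] with a h b R N U lam hb hR hN hlam hsum hUb hC
  obtain ⟨ha, h⟩ := h
  have ha1 : (1 : ℝ) ≤ a := by
    have : 1 ≤ a := by omega
    exact_mod_cast this
  have hRa : R ≤ a := by
    have h1 : (R : ℝ) ≤ a := by
      refine hR.trans ?_
      calc (a : ℝ) ^ th ≤ (a : ℝ) ^ (1 : ℝ) := Real.rpow_le_rpow_of_exponent_le ha1 hth1
        _ = a := Real.rpow_one _
    exact_mod_cast h1
  have hS : a * b ≤ a ^ 3 := by
    calc a * b ≤ a * a ^ 2 := Nat.mul_le_mul_left _ hb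
      _ = a ^ 3 := by ring
  have hD : ∑ i, low R lam i ≤ a ^ 3 := by
    have := sum_split hRa lam
    omega
  have hL : ex lam 0 ≤ a ^ 3 := by
    have := ex_le_sum lam
    omega
  obtain ⟨haN, hnum⟩ := h R N _ _ hR hN hL hD
  exact final7 hU hRa (by omega) hlam haN hnum hUb hC

end Vale.Agent.P181.H403
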