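import Vale.Agent.P181.H403.Dec

set_option autoImplicit false

/-! # P181, T7: the arithmetic of case II -/

namespace Vale.Agent.P181.H403

open Vale.Agent.P181.T4 Vale.Agent.P181.H280

lemma ex_shp {n : ℕ} (lam : Fin n → ℕ) {R : ℕ} (hR : R ≤ n) (f : ℕ → ℕ) (s : ℕ) :
    ex (shp lam R f) s = ex lam (max s R) +
      ∑ j ∈ Finset.Icc 1 R, if s < j then f j else 0 := by
  by_cases hs : s < n
  · rw [ex_of_lt _ hs]
    rfl
  · have h1 : ex (shp lam R f) s = 0 := by
      unfold ex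
      rw [dif_neg hs]
    have h2 : ex lam (max s R) = 0 := by
      unfold ex
      rw [dif_neg (by rw [max_lt_iff]; omega)]
    rw [h1, h2, Finset.sum_eq_zero (fun j hj => by
      rw [Finset.mem_Icc] at hj
      rw [if_neg (by omega)]), add_zero]

/-- `∑_{j ≤ R} j * f j ≤ 2 a R ^ 2` for `f j ≤ 2 a` -/
lemma sum_mul_le {a R : ℕ} (T : Finset ℕ) (hT : T ⊆ Finset.Icc 1 R) (f : ℕ → ℕ)
    (hf : ∀ j ∈ T, f j ≤ 2 * a) : ∑ j ∈ T, j * f j ≤ 2 * a * R ^ 2 := by
  calc ∑ j ∈ T, j * f j ≤ ∑ _j ∈ T, R * (2 * a) := by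
        refine Finset.sum_le_sum fun j hj => ?_
        have h1 := Finset.mem_Icc.1 (hT hj)
        exact Nat.mul_le_mul h1.2 (hf j hj)
    _ = T.card * (R * (2 * a)) := by rw [Finset.sum_const, smul_eq_mul]
    _ ≤ R * (R * (2 * a)) := by
        refine Nat.mul_le_mul_right _ ?_
        have h1 := Finset.card_le_card hT
        simpa using h1
    _ = 2 * a * R ^ 2 := by ring

/-- `a (N0 + 8 R N0 + 2) ≤ 2 G` -/
lemma ar1 {a b R N0 L G : ℕ} (hR1 : 1 ≤ R) (hN0 : R ≤ N0) (hL : 2 * L ≤ N0 * a)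
    (hG : a * b ≤ L + R * G) (hb : 16 * R ^ 2 * N0 ≤ b) : a * (N0 + 8 * R * N0 + 2) ≤ 2 * G := by
  have h1 : 2 * (a * b) ≤ N0 * a + 2 * (R * G) := by omega
  have h2 : a * (16 * R ^ 2 * N0) ≤ a * b := Nat.mul_le_mul_left _ hb
  refine Nat.le_of_mul_le_mul_left (c := R) ?_ (by omega)
  have h4 : R * (a * (N0 + 8 * R * N0 + 2)) + N0 * a ≤ 2 * (a * (16 * R ^ 2 * N0)) := by
    have h5 : N0 ≤ R ^ 2 * N0 := Nat.le_mul_of_pos_left _ (by positivity)
    have h6 : R * N0 ≤ R ^ 2 * N0 := Nat.mul_le_mul_right _ (by nlinarith)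
    have h8 : R * (a * (N0 + 8 * R * N0 + 2)) + N0 * a =
      a * (R * N0 + 8 * (R ^ 2 * N0) + 2 * R + N0) := by ring
    have h9 : 2 * (a * (16 * R ^ 2 * N0)) = a * (32 * (R ^ 2 * N0)) := by ring
    rw [h8, h9]
    exact Nat.mul_le_mul_left _ (by omega)
  have h10 : R * (2 * G) = 2 * (R * G) := by ring
  omega

/-- `2 (W + k) ≤ k (N0 + 8 R N0 + 2)` -/
lemma ar2 {R r N0 k k0 Z y W : ℕ} (hrR : r ≤ R) (hkk0 : k0 ≤ k) (hZ : 2 * Z ≤ N0 * k0)
    (hy : y = 4 * N0 * k) (hW : W ≤ Z + r * y) : 2 * (W + k) ≤ k * (N0 + 8 * R * N0 + 2) := by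
  have h5 : 2 * Z ≤ k * N0 := by
    calc 2 * Z ≤ N0 * k0 := hZ
      _ ≤ N0 * k := Nat.mul_le_mul_left _ hkk0
      _ = k * N0 := mul_comm _ _
  have h6 : r * y ≤ R * y := Nat.mul_le_mul_right _ hrR
  have h7 : 2 * (R * y) = k * (8 * R * N0) := by
    rw [hy]
    ring
  have h8 : k * (N0 + 8 * R * N0 + 2) = k * N0 + k * (8 * R * N0) + 2 * k := by ring
  omega

/-- the number of the letters -/
lemma ar3 {a k i W X B G : ℕ} (ha : 0 < a) (hk : 1 ≤ k) (hi : 1 ≤ i)
    (h1 : 2 * (W + k) ≤ k * X) (h2 : a * X ≤ 2 * G) (hB : G ≤ a * B) :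
    ∃ N, N ≤ B ∧ 2 * i ∣ B - N ∧ W < k * N ∧ k * N ≤ W + i * (2 * k) := by
  set N1 : ℕ := W / k + 1 with hN1
  have hkN1' : k * N1 ≤ W + k := by
    have h6 := Nat.mul_div_le W k
    rw [hN1, Nat.mul_add, Nat.mul_one]
    omega
  have hN1B : N1 ≤ B := by
    refine Nat.le_of_mul_le_mul_left (c := 2 * k * a) ?_ (by positivity)
    calc 2 * k * a * N1 = 2 * a * (k * N1) := by ring
      _ ≤ 2 * a * (W + k) := Nat.mul_le_mul_left _ hkN1'
      _ = a * (2 * (W + k)) := by ring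
      _ ≤ a * (k * X) := Nat.mul_le_mul_left _ h1
      _ = k * (a * X) := by ring
      _ ≤ k * (2 * G) := Nat.mul_le_mul_left _ h2
      _ ≤ k * (2 * (a * B)) := Nat.mul_le_mul_left _ (by omega)
      _ = 2 * k * a * B := by ring
  have hmod := Nat.mod_add_div (B - N1) (2 * i)
  have hmodlt : (B - N1) % (2 * i) < 2 * i := Nat.mod_lt _ (by omega)
  have hkN1 : W < k * N1 := Nat.lt_mul_div_succ W (by omega)
  refine ⟨N1 + (B - N1) % (2 * i), by omega, ⟨(B - N1) / (2 * i), by omega⟩, ?_, ?_⟩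
  · exact lt_of_lt_of_le hkN1 (Nat.mul_le_mul_left _ (by omega))
  · have h1 : k * (N1 + (B - N1) % (2 * i)) ≤ k * (N1 + (2 * i - 1)) :=
      Nat.mul_le_mul_left _ (by omega)
    have h2 : k * (N1 + (2 * i - 1)) = k * N1 + k * (2 * i - 1) := by ring
    have h3 : k * (2 * i - 1) + k = i * (2 * k) := by
      obtain ⟨t, ht⟩ : ∃ t, 2 * i = t + 1 := ⟨2 * i - 1, by omega⟩
      have : i * (2 * k) = 2 * i * k := by ring
      rw [this, ht, Nat.add_sub_cancel]
      ring
    omega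

/-- the degree -/
lemma ar4 {a k0 i : ℕ} (hi : 1 ≤ i) (hk0a : k0 ≤ a) :
    ∃ k, k0 ≤ k ∧ k < k0 + 2 * i ∧ k ≤ a ∧ 2 * i ∣ a - k := by
  set q : ℕ := (a - k0) / (2 * i) with hq
  have hq1 : 2 * i * q ≤ a - k0 := Nat.mul_div_le _ _
  have hq2 : a - k0 < 2 * i * (q + 1) := by
    rw [hq]
    exact Nat.lt_mul_div_succ _ (by omega)
  rw [Nat.mul_add, Nat.mul_one] at hq2
  exact ⟨a - 2 * i * q, by omega, by omega, by omega, ⟨q, by omega⟩⟩

/-- the shape: all lengths `j ≠ r`, `j ≤ R` have at most `2 a` columns -/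
lemma shp_bounds {a R r N0 k k0 Z y : ℕ} {lam : Fin a → ℕ}
    (hr : 1 ≤ r) (hrR : r ≤ R) (hRa : R < a) (hkk0 : k0 ≤ k)
    (hZdef : Z = R * ex lam R + 2 * a * R ^ 2 + ∑ i, low R lam i)
    (hZ : 2 * Z ≤ N0 * k0) (hy : y = 4 * N0 * k)
    (f : ℕ → ℕ) (hf2 : ∀ j, j ≠ r → f j ≤ 2 * a) (hfy : y ≤ f r) :
    (∀ s, R ≤ s → ex (shp lam R f) s = ex lam s) ∧
      ex (shp lam R f) r + 4 * N0 * k ≤ ex (shp lam R f) (r - 1) ∧
      ex (shp lam R f) 0 ≤ 2 * (ex (shp lam R f) (r - 1) - ex (shp lam R f) r) ∧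
      ∑ i, low r (shp lam R f) i ≤ Z := by
  have hR1 : 1 ≤ R := hr.trans hrR
  have hrI : r ∈ Finset.Icc 1 R := Finset.mem_Icc.2 ⟨hr, hrR⟩
  have hexr : ex (shp lam R f) (r - 1) = ex (shp lam R f) r + f r := by
    rw [ex_shp lam hRa.le, ex_shp lam hRa.le, max_eq_right hrR, max_eq_right (by omega : r - 1 ≤ R),
      add_assoc]
    congr 1
    rw [← Finset.add_sum_erase _ _ hrI, ← Finset.add_sum_erase _ (fun j =>
      if r < j then f j else 0) hrI, if_pos (by omega), if_neg (lt_irrefl r), zero_add, add_comm]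
    congr 1
    refine Finset.sum_congr rfl fun j hj => ?_
    rw [Finset.mem_erase] at hj
    by_cases h : r < j
    · rw [if_pos h, if_pos (by omega)]
    · rw [if_neg h, if_neg (by omega)]
  refine ⟨?_, ?_, ?_, ?_⟩
  · intro s hs
    rw [ex_shp lam hRa.le, max_eq_left hs, Finset.sum_eq_zero, add_zero]
    intro j hj
    rw [Finset.mem_Icc] at hj
    rw [if_neg (by omega)]
  · rw [hexr]
    omega
  · rw [hexr, Nat.add_sub_cancel_left, ex_shp lam hRa.le, max_eq_right (Nat.zero_le _)]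
    have h1 : ∑ j ∈ Finset.Icc 1 R, (if 0 < j then f j else 0) ≤ f r + 2 * a * R := by
      rw [← Finset.add_sum_erase _ _ hrI, if_pos (by omega)]
      refine Nat.add_le_add_left ?_ _
      calc ∑ j ∈ (Finset.Icc 1 R).erase r, (if 0 < j then f j else 0)
          ≤ ∑ _j ∈ (Finset.Icc 1 R).erase r, 2 * a := by
            refine Finset.sum_le_sum fun j hj => ?_
            rw [Finset.mem_erase, Finset.mem_Icc] at hj
            rw [if_pos (by omega)]
            exact hf2 j hj.1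
        _ = ((Finset.Icc 1 R).erase r).card * (2 * a) := by rw [Finset.sum_const, smul_eq_mul]
        _ ≤ R * (2 * a) := by
            refine Nat.mul_le_mul_right _ ?_
            have h2 := Finset.card_le_card (Finset.erase_subset r (Finset.Icc 1 R))
            simpa using h2
        _ = 2 * a * R := by ring
    have h2 : ex lam R + 2 * a * R ≤ Z := by
      have h3 : ex lam R ≤ R * ex lam R := Nat.le_mul_of_pos_left _ (by omega)
      have h4 : 2 * a * R ≤ 2 * a * R ^ 2 := Nat.mul_le_mul_left _ (by nlinarith)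
      rw [hZdef]
      omega
    have h3 : Z ≤ y := by
      have h4 : N0 * k0 ≤ N0 * k := Nat.mul_le_mul_left _ hkk0
      have h5 : y = 4 * (N0 * k) := by rw [hy]; ring
      omega
    omega
  · -- the lower part
    set f' : ℕ → ℕ := fun j => if j ≤ r then 0 else f j with hf'
    have h1 : low r (shp lam R f) = low r (shp lam R f') := by
      funext t
      unfold low
      rw [ex_shp lam hRa.le, ex_shp lam hRa.le]
      congr 1
      refine Finset.sum_congr rfl fun j _ => ?_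
      by_cases h : r + (t : ℕ) < j
      · rw [if_pos h, if_pos h]
        simp only [hf']
        rw [if_neg (by omega)]
      · rw [if_neg h, if_neg h]
    have h2 := sum_split (hrR.trans hRa.le) (shp lam R f')
    have h3 := sum_shp hRa.le lam f'
    have h4 := sum_mul_le (a := a) (R := R) (Finset.Icc 1 R) le_rfl f' (fun j _ => by
      simp only [hf']
      split_ifs with h
      · exact Nat.zero_le _
      · exact hf2 j (by omega))
    rw [lng_eq hRa.le] at h3
    rw [h1, hZdef]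
    omega

theorem dec2 {a b R r N0 k0 : ℕ} {lam : Fin a → ℕ} (hlam : Antitone lam)
    (hsum : ∑ i, lam i = a * b) (hr : 1 ≤ r) (hrR : r ≤ R) (hRa : R < a) (hk0 : 2 * R ≤ k0)
    (hk0a : k0 ≤ a) (hN0 : R ≤ N0)
    (hroom : 4 * N0 * (k0 + 2 * R) + 2 * a + ex lam r ≤ ex lam (r - 1))
    (hZ : 2 * (R * ex lam R + 2 * a * R ^ 2 + ∑ i, low R lam i) ≤ N0 * k0)
    (hb : 16 * R ^ 2 * N0 ≤ b) :
    ∃ (N k : ℕ) (mu : Fin a → ℕ), Antitone mu ∧ ∑ i, mu i = k * N ∧ k0 ≤ k ∧ k ≤ k0 + 2 * R ∧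
      k ≤ a ∧ (∀ s, R ≤ s → ex mu s = ex lam s) ∧ ex mu r + 4 * N0 * k ≤ ex mu (r - 1) ∧
      ex mu 0 ≤ 2 * (ex mu (r - 1) - ex mu r) ∧
      ∑ i, low r mu i ≤ R * ex lam R + 2 * a * R ^ 2 + ∑ i, low R lam i ∧
      plethMult N k a mu ≤ plethMult b a a lam := by
  classical
  set Z : ℕ := R * ex lam R + 2 * a * R ^ 2 + ∑ i, low R lam i with hZdef
  have hR1 : 1 ≤ R := hr.trans hrR
  obtain ⟨i, hiI, hmax⟩ := Finset.exists_max_image (Finset.Icc 1 R) (fun j => j * cg lam j)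
    ⟨1, Finset.mem_Icc.2 ⟨le_rfl, hR1⟩⟩
  obtain ⟨hi, hiR⟩ := Finset.mem_Icc.1 hiI
  have hrI : r ∈ Finset.Icc 1 R := Finset.mem_Icc.2 ⟨hr, hrR⟩
  obtain ⟨k, hkk0, hkk1, hka, hdk⟩ := ar4 hi hk0a
  have hk1 : 1 ≤ k := by omega
  have hkR : k ≤ k0 + 2 * R := by omega
  -- the numbers of the columns
  set y : ℕ := 4 * N0 * k with hy
  have hyg : y + 2 * a ≤ cg lam r := by
    have h1 : 4 * N0 * k ≤ 4 * N0 * (k0 + 2 * R) := Nat.mul_le_mul_left _ hkR
    unfold cg
    omega
  set e : ℕ → ℕ := fun j => if j = r then y else 0 with he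
  have her : e r = y := by simp [he]
  have hene : ∀ j, j ≠ r → e j = 0 := fun j hj => by simp [he, hj]
  have heg : ∀ j, e j ≤ cg lam j := by
    intro j
    by_cases hj : j = r
    · rw [hj, her]
      omega
    · rw [hene j hj]
      exact Nat.zero_le _
  set rr : ℕ → ℕ := fun j => e j + (cg lam j - e j) % (2 * a) with hrr
  set c : ℕ → ℕ := fun j => (cg lam j - e j) / (2 * a) with hc
  have hrc : ∀ j, 1 ≤ j → j ≤ R → j ≠ i → cg lam j = rr j + 2 * a * c j := by
    intro j _ _ _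
    have h1 := Nat.mod_add_div (cg lam j - e j) (2 * a)
    have h2 := heg j
    simp only [hrr, hc]
    omega
  set S : ℕ := ∑ j ∈ (Finset.Icc 1 R).erase i, j * c j with hS
  set D' : ℕ := lng lam R + ∑ j ∈ (Finset.Icc 1 R).erase i, j * rr j with hD'
  -- the number of the cells
  have hcells := sum_cells hlam hRa.le
  rw [hsum] at hcells
  have htot2 : ∑ j ∈ Finset.Icc 1 R, j * cg lam j = i * cg lam i +
      (∑ j ∈ (Finset.Icc 1 R).erase i, j * rr j + 2 * a * S) := by
    rw [← Finset.add_sum_erase _ _ hiI]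
    congr 1
    rw [hS, Finset.mul_sum, ← Finset.sum_add_distrib]
    refine Finset.sum_congr rfl fun j hj => ?_
    rw [Finset.mem_erase, Finset.mem_Icc] at hj
    rw [hrc j hj.2.1 hj.2.2 hj.1]
    ring
  have htot3 : a * b = i * cg lam i + D' + 2 * a * S := by
    rw [hcells, htot2, hD']
    ring
  have ha0 : 0 < a := by omega
  have hSb : 2 * S ≤ b := by
    by_contra hlt
    have h1 : a * (b + 1) ≤ a * (2 * S) := Nat.mul_le_mul_left _ (by omega)
    have h2 : a * (2 * S) = 2 * a * S := by ring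
    have h3 : a * (b + 1) = a * b + a := by ring
    omega
  obtain ⟨B', hB'⟩ : ∃ B', B' = b - 2 * S := ⟨_, rfl⟩
  have haB : a * B' = i * cg lam i + D' := by
    have h1 : a * b = a * B' + 2 * a * S := by
      have : b = B' + 2 * S := by omega
      rw [this]
      ring
    omega
  -- bounds of the remainders
  have hlng : lng lam R = R * ex lam R + ∑ i, low R lam i := lng_eq hRa.le lam
  have hsumrr : ∑ j ∈ (Finset.Icc 1 R).erase i, j * rr j + i * e i ≤ 2 * a * R ^ 2 + r * y := by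
    have h1 : ∑ j ∈ (Finset.Icc 1 R).erase i, j * rr j =
        ∑ j ∈ (Finset.Icc 1 R).erase i, j * e j +
        ∑ j ∈ (Finset.Icc 1 R).erase i, j * ((cg lam j - e j) % (2 * a)) := by
      rw [← Finset.sum_add_distrib]
      refine Finset.sum_congr rfl fun j _ => ?_
      simp only [hrr]
      ring
    have h2 : i * e i + ∑ j ∈ (Finset.Icc 1 R).erase i, j * e j = r * y := by
      rw [Finset.add_sum_erase _ (fun j => j * e j) hiI,
        Finset.sum_eq_single_of_mem r hrI (fun j _ hj => by rw [hene j hj, mul_zero]), her]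
    have h3 := sum_mul_le (a := a) (R := R) ((Finset.Icc 1 R).erase i) (Finset.erase_subset _ _)
      (fun j => (cg lam j - e j) % (2 * a)) (fun j _ => (Nat.mod_lt _ (by omega)).le)
    omega
  have hDie : D' + i * e i ≤ Z + r * y := by
    rw [hD', hlng, hZdef]
    omega
  have hDie2 : r * y ≤ D' + i * e i := by
    by_cases h : r = i
    · rw [← h, her]
      omega
    · have h1 : r ∈ (Finset.Icc 1 R).erase i := Finset.mem_erase.2 ⟨h, hrI⟩
      have h2 : r * rr r ≤ ∑ j ∈ (Finset.Icc 1 R).erase i, j * rr j :=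
        Finset.single_le_sum (f := fun j => j * rr j) (fun _ _ => Nat.zero_le _) h1
      have h3 : r * y ≤ r * rr r := by
        refine Nat.mul_le_mul_left _ ?_
        simp only [hrr, her]
        omega
      rw [hD']
      omega
  -- the number of the letters
  set W : ℕ := D' + i * e i with hW
  have hlng2 : 2 * lng lam R ≤ N0 * a := by
    calc 2 * lng lam R ≤ 2 * Z := by rw [hlng, hZdef]; omega
      _ ≤ N0 * k0 := hZ
      _ ≤ N0 * a := Nat.mul_le_mul_left _ hk0a
  have hsumcg : ∑ j ∈ Finset.Icc 1 R, j * cg lam j ≤ R * (i * cg lam i) := by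
    calc ∑ j ∈ Finset.Icc 1 R, j * cg lam j ≤ ∑ _j ∈ Finset.Icc 1 R, i * cg lam i :=
          Finset.sum_le_sum fun j hj => hmax j hj
      _ = R * (i * cg lam i) := by simp
  obtain ⟨N, hNB, hdvd, hkN2, hkN⟩ := ar3 (i := i) ha0 hk1 hi
    (ar2 (R := R) hrR hkk0 hZ hy hDie)
    (ar1 (b := b) (L := lng lam R) (G := i * cg lam i) hR1 hN0 hlng2 (by omega) hb)
    (show i * cg lam i ≤ a * B' by omega)
  have hiN : i ≤ N := by
    have h1 : R < N := by
      refine Nat.lt_of_mul_lt_mul_left (a := k) ?_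
      calc k * R ≤ k * N0 := Nat.mul_le_mul_left _ hN0
        _ ≤ 4 * N0 * k := by
          have : 4 * N0 * k = 4 * (k * N0) := by ring
          omega
        _ = y := hy.symm
        _ ≤ r * y := Nat.le_mul_of_pos_left _ (by omega)
        _ ≤ W := hDie2
        _ < k * N := hkN2
    omega
  obtain ⟨ri, hri1, hri2, hri3⟩ := dec_use hlam hsum hRa hi hiR hiN rr c hrc hka
    hdk (by rw [← hS]; omega) (by
      rw [← hS]
      have : b - (N + 2 * S) = B' - N := by omega
      rw [this]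
      exact hdvd) (by rw [← hD']; omega)
  rw [← hD'] at hri1
  have hri4 : e i ≤ ri := by
    refine Nat.le_of_mul_le_mul_left (c := i) ?_ (by omega)
    omega
  have hri5 : ri ≤ e i + 2 * k := by
    refine Nat.le_of_mul_le_mul_left (c := i) ?_ (by omega)
    rw [Nat.mul_add]
    omega
  set f : ℕ → ℕ := Function.update rr i ri with hf
  have hf1 : ∀ j, e j ≤ f j := by
    intro j
    by_cases hj : j = i
    · rw [hj, hf, Function.update_self]
      exact hri4
    · rw [hf, Function.update_of_ne hj]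
      exact Nat.le_add_right _ _
  have hf2 : ∀ j, f j ≤ e j + 2 * a := by
    intro j
    by_cases hj : j = i
    · rw [hj, hf, Function.update_self]
      omega
    · rw [hf, Function.update_of_ne hj]
      exact Nat.add_le_add_left (Nat.mod_lt _ (by omega)).le _
  have hfy : y ≤ f r := by
    have := hf1 r
    rwa [her] at this
  obtain ⟨s1, s2, s3, s4⟩ := shp_bounds hr hrR hRa hkk0 hZdef hZ hy f (fun j hj => by
    have := hf2 j
    rw [hene j hj] at this
    omega) hfy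
  exact ⟨N, k, shp lam R f, shp_anti hlam R f, hri2, hkk0, hkR, hka, s1, s2, s3, s4, hri3⟩

end Vale.Agent.P181.H403
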