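import Vale.Agent.P181.H403.Spec8
import Vale.Agent.P181.T7.Asm7

set_option autoImplicit false

/-!
# P181, T8: the case split
-/

open Filter

namespace Vale.Agent.P181.T8

open Vale.Agent.P181.T4 Vale.Agent.P181.T7 Vale.Agent.P181.H280 Vale.Agent.P181.H463

/-- **The case split** (deterministic form): `X ≥ 1`, at most `B` steps. -/
theorem split_det8 {a : ℕ} {lam : Fin a → ℕ} (hlam : Antitone lam) (j : ℕ) {X θ G : ℝ}
    (hX : 1 < X) (B : ℕ) (hjB : j ≤ B) (hB : (1 - 1 / X) ^ (B - j) * (below j lam : ℝ) < θ)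
    (h2 : θ + G * B ≤ (below j lam : ℝ) / X) (hθ2 : θ ≤ (below j lam : ℝ)) :
    (∃ R ≤ B, θ ≤ (below R lam : ℝ) ∧ X * (ex lam R : ℝ) ≤ below R lam) ∨
    ∃ R1 r, j < r ∧ r ≤ R1 ∧ R1 ≤ B ∧ (below R1 lam : ℝ) < θ ∧
      G ≤ ((ex lam (r - 1) - ex lam r : ℕ) : ℝ) := by
  have hX0 : 0 < X := by linarith
  by_cases hbulk : ∃ R ≤ B, θ ≤ (below R lam : ℝ) ∧ X * (ex lam R : ℝ) ≤ below R lam
  · exact Or.inl hbulk
  right
  push Not at hbulk
  -- the number of cells decreases
  have hdec : ∀ i ≤ B, θ ≤ (below i lam : ℝ) → (below (i + 1) lam : ℝ) ≤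
      (1 - 1 / X) * below i lam := by
    intro i hi hθi
    have h1 := hbulk i hi hθi
    have h3 : (below i lam : ℝ) = ex lam i + below (i + 1) lam := by
      exact_mod_cast below_succ (R := i) lam
    have h4 : (below i lam : ℝ) / X < ex lam i := by
      rw [div_lt_iff₀ hX0]
      linarith
    have h5 : (1 - 1 / X) * (below i lam : ℝ) = below i lam - below i lam / X := by ring
    linarith
  have hex : ∃ i, j ≤ i ∧ i ≤ B ∧ (below i lam : ℝ) < θ := by
    by_contra hcon
    push Not at hcon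
    have hall : ∀ i, j + i ≤ B → (below (j + i) lam : ℝ) ≤ (1 - 1 / X) ^ i * below j lam := by
      intro i
      induction i with
      | zero => intro _; simp
      | succ i ih =>
        intro hi
        have h1 := hdec (j + i) (by omega) (hcon (j + i) (by omega) (by omega))
        have h3 := ih (by omega)
        have h4 : 0 ≤ 1 - 1 / X := by
          rw [sub_nonneg, div_le_one hX0]
          exact hX.le
        calc (below (j + (i + 1)) lam : ℝ) ≤ (1 - 1 / X) * below (j + i) lam := h1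
          _ ≤ (1 - 1 / X) * ((1 - 1 / X) ^ i * below j lam) := by gcongr
          _ = _ := by ring
    have h5 := hcon B hjB le_rfl
    have h6 := hall (B - j) (by omega)
    rw [show j + (B - j) = B by omega] at h6
    linarith
  classical
  obtain ⟨R1, ⟨hjR, hR1B, hR1θ⟩, hmin⟩ : ∃ R1, (j ≤ R1 ∧ R1 ≤ B ∧ (below R1 lam : ℝ) < θ) ∧
      ∀ i < R1, ¬ (j ≤ i ∧ i ≤ B ∧ (below i lam : ℝ) < θ) :=
    ⟨Nat.find hex, Nat.find_spec hex, fun i hi => Nat.find_min hex hi⟩
  have hR1 : j < R1 := by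
    rcases Nat.lt_or_ge j R1 with h | h
    · exact h
    · exfalso
      have : R1 = j := by omega
      rw [this] at hR1θ
      linarith
  -- row j is large
  have hrow : (below j lam : ℝ) / X < ex lam j := by
    have h1 := hbulk j hjB (by linarith)
    rw [div_lt_iff₀ hX0]
    linarith
  -- pigeonhole
  have hpig : ∃ r ∈ Finset.Ico j R1, G ≤ ((ex lam r - ex lam (r + 1) : ℕ) : ℝ) := by
    by_contra hcon
    push Not at hcon
    have h1 := sum_gaps hlam (p := j) (q := R1) (by omega)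
    have h3 : (∑ r ∈ Finset.Ico j R1, ((ex lam r - ex lam (r + 1) : ℕ) : ℝ)) + ex lam R1 =
        ex lam j := by exact_mod_cast h1
    have hG0 : 0 ≤ G := by
      have h4 := hcon j (by rw [Finset.mem_Ico]; omega)
      exact (Nat.cast_nonneg _).trans h4.le
    have h4 : (∑ r ∈ Finset.Ico j R1, ((ex lam r - ex lam (r + 1) : ℕ) : ℝ)) ≤ G * B := by
      calc (∑ r ∈ Finset.Ico j R1, ((ex lam r - ex lam (r + 1) : ℕ) : ℝ))
          ≤ ∑ _r ∈ Finset.Ico j R1, G := Finset.sum_le_sum fun r hr => (hcon r hr).le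
        _ = ((R1 - j : ℕ) : ℝ) * G := by rw [Finset.sum_const, Nat.card_Ico, nsmul_eq_mul]
        _ ≤ B * G := by
            apply mul_le_mul_of_nonneg_right _ hG0
            exact_mod_cast (by omega : R1 - j ≤ B)
        _ = G * B := mul_comm _ _
    have h5 : (ex lam R1 : ℝ) < θ := by
      have := ex_le_below lam R1
      have h6 : (ex lam R1 : ℝ) ≤ below R1 lam := by exact_mod_cast this
      linarith
    linarith
  obtain ⟨r, hr, hG⟩ := hpig
  rw [Finset.mem_Ico] at hr
  exact ⟨R1, r + 1, by omega, by omega, hR1B, hR1θ, hG⟩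

/-- **The case split.** -/
theorem split8 : Split8 := by
  intro δ θ t j hδ hδ1 hθ hθt hj hjt
  have h3 : Tendsto (fun a : ℕ => (a : ℝ) ^ δ) atTop atTop :=
    (tendsto_rpow_atTop hδ).comp tendsto_natCast_atTop_atTop
  filter_upwards [ev_big δ hδ, eventually_ge_atTop 3, h3.eventually_ge_atTop ((j : ℝ) + 2)] with
    a hbig ha hXj b lam hb hlam hsum h2
  have ha3 : (3 : ℝ) ≤ a := by exact_mod_cast ha
  have ha1 : (1 : ℝ) ≤ a := by linarith
  have ha0 : (0 : ℝ) < a := by linarith
  have hlog : 1 ≤ Real.log a := by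
    rw [Real.le_log_iff_exp_le ha0]
    have := Real.exp_one_lt_d9
    linarith
  have hj2 : (2 : ℝ) ≤ j := by exact_mod_cast hj
  set X : ℝ := (a : ℝ) ^ δ with hX
  have hX2 : 4 ≤ X := by linarith
  have hX0 : 0 < X := by linarith
  have hpow : ∀ s : ℝ, ∀ n : ℕ, (a : ℝ) ^ (s + n * δ) = (a : ℝ) ^ s * X ^ n := by
    intro s n
    rw [Real.rpow_add ha0, mul_comm (n : ℝ) δ, Real.rpow_mul ha0.le, Real.rpow_natCast]
  have e2 : (a : ℝ) ^ (2 * δ) = X ^ 2 := by
    have := hpow 0 2
    rw [Real.rpow_zero, zero_add, one_mul] at this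
    exact_mod_cast this
  have e6 : (a : ℝ) ^ (1 + θ + 6 * δ) = (a : ℝ) ^ (1 + θ : ℝ) * X ^ 6 := by
    exact_mod_cast hpow (1 + θ) 6
  have e16 : (a : ℝ) ^ (1 + t + 16 * δ) = (a : ℝ) ^ (1 + t : ℝ) * X ^ 16 := by
    exact_mod_cast hpow (1 + t) 16
  have e20 : (a : ℝ) ^ (1 + t + 20 * δ) = (a : ℝ) ^ (1 + t : ℝ) * X ^ 20 := by
    exact_mod_cast hpow (1 + t) 20
  have hAθ : (a : ℝ) ^ (1 + θ : ℝ) ≤ (a : ℝ) ^ (1 + t : ℝ) :=
    Real.rpow_le_rpow_of_exponent_le ha1 (by linarith)
  have hAθ1 : 1 ≤ (a : ℝ) ^ (1 + θ : ℝ) := Real.one_le_rpow ha1 (by linarith)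
  set A' : ℝ := (a : ℝ) ^ (1 + θ : ℝ) with hA'
  set A : ℝ := (a : ℝ) ^ (1 + t : ℝ) with hA
  have hA1 : 1 ≤ A := hAθ1.trans hAθ
  set B : ℕ := ⌊X ^ 2⌋₊ with hB
  have hBX : (B : ℝ) ≤ X ^ 2 := Nat.floor_le (by positivity)
  have hBX2 : X ^ 2 - 1 < B := by
    have := Nat.lt_floor_add_one (X ^ 2)
    linarith
  have hjB : j ≤ B := by
    have : (j : ℝ) ≤ B := by nlinarith
    exact_mod_cast this
  have hDj : (below j lam : ℝ) ≤ (a : ℝ) ^ 3 := by
    have h1 : (below j lam : ℝ) ≤ below 0 lam := by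
      exact_mod_cast below_anti lam (Nat.zero_le j)
    refine h1.trans ?_
    rw [below_zero, hsum]
    have : a * b ≤ a ^ 3 := by
      calc a * b ≤ a * a ^ 2 := Nat.mul_le_mul_left _ hb
        _ = a ^ 3 := by ring
    exact_mod_cast this
  rw [e20] at h2
  have hdet := split_det8 hlam j (X := X) (θ := A' * X ^ 6) (G := A * X ^ 16) (by linarith) B hjB
    ?_ ?_ ?_
  · rcases hdet with ⟨R, hR, h3, h4⟩ | ⟨R1, r, h3, h4, h5, h6, h7⟩
    · left
      refine ⟨R, ?_, ?_, h4⟩
      · rw [e2]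
        have : (R : ℝ) ≤ B := by exact_mod_cast hR
        linarith
      · rw [e6]
        exact h3
    · right
      refine ⟨R1, r, ?_, ?_, by omega, h4, ?_, ?_⟩
      · rw [e2]
        have : (R1 : ℝ) ≤ B := by exact_mod_cast h5
        linarith
      · rw [e6]
        exact h6
      · have h8 : (j : ℝ) ≤ (r : ℝ) - 1 := by
          have : (j : ℝ) + 1 ≤ r := by exact_mod_cast h3
          linarith
        have h9 : 0 ≤ t := hθ.trans hθt
        have := mul_le_mul_of_nonneg_right h8 h9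
        linarith
      · rw [e16]
        have h8 : ex lam r ≤ ex lam (r - 1) := ex_anti hlam (Nat.sub_le r 1)
        rw [Nat.cast_sub h8] at h7
        linarith
  · -- the number of steps suffices
    have h3 : (1 - 1 / X) ^ (B - j) ≤ Real.exp (-(X - 2)) := by
      have h4 : 0 ≤ 1 - 1 / X := by
        rw [sub_nonneg, div_le_one hX0]
        linarith
      have h5 : 1 - 1 / X ≤ Real.exp (-(1 / X)) := by
        have := Real.add_one_le_exp (-(1 / X))
        linarith
      calc (1 - 1 / X) ^ (B - j) ≤ (Real.exp (-(1 / X))) ^ (B - j) := pow_le_pow_left₀ h4 h5 _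
        _ = Real.exp (-(((B - j : ℕ) : ℝ) / X)) := by
            rw [← Real.exp_nat_mul]
            congr 1
            ring
        _ ≤ Real.exp (-(X - 2)) := by
            rw [Real.exp_le_exp]
            have h6 : X - 2 ≤ ((B - j : ℕ) : ℝ) / X := by
              rw [le_div_iff₀ hX0, Nat.cast_sub hjB]
              nlinarith
            linarith
    have h4 : (a : ℝ) ^ 3 = Real.exp (3 * Real.log a) := by
      rw [mul_comm, Real.exp_mul, Real.exp_log ha0]
      norm_cast
    have hX6 : 2 < X ^ 6 := by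
      calc (2 : ℝ) < 4 ^ 6 := by norm_num
        _ ≤ X ^ 6 := pow_le_pow_left₀ (by norm_num) hX2 6
    have hD00 : (0 : ℝ) ≤ below j lam := Nat.cast_nonneg _
    calc (1 - 1 / X) ^ (B - j) * (below j lam : ℝ) ≤ Real.exp (-(X - 2)) * (a : ℝ) ^ 3 :=
          mul_le_mul h3 hDj hD00 (Real.exp_pos _).le
      _ = Real.exp (3 * Real.log a - (X - 2)) := by
          rw [h4, ← Real.exp_add]
          congr 1
          ring
      _ < Real.exp 1 := by
          rw [Real.exp_lt_exp]
          linarith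
      _ ≤ 3 := by linarith [Real.exp_one_lt_d9]
      _ ≤ A' * X ^ 6 := by
          have : (3 : ℝ) ≤ X ^ 6 := by
            calc (3 : ℝ) ≤ 4 ^ 6 := by norm_num
              _ ≤ X ^ 6 := pow_le_pow_left₀ (by norm_num) hX2 6
          nlinarith
  · have h3 : A * X ^ 19 ≤ (below j lam : ℝ) / X := by
      rw [le_div_iff₀ hX0]
      calc A * X ^ 19 * X = A * X ^ 20 := by ring
        _ ≤ _ := h2
    refine le_trans ?_ h3
    have hA0 : 0 ≤ A := by linarith
    have h4 : A' * X ^ 6 ≤ A * X ^ 18 := by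
      apply mul_le_mul hAθ _ (by positivity) hA0
      exact pow_le_pow_right₀ (by linarith) (by norm_num)
    have h5 : A * X ^ 16 * B ≤ A * X ^ 18 := by
      calc A * X ^ 16 * B ≤ A * X ^ 16 * X ^ 2 := by gcongr
        _ = _ := by ring
    have h6 : A * X ^ 18 + A * X ^ 18 ≤ A * X ^ 19 := by
      calc A * X ^ 18 + A * X ^ 18 = A * X ^ 18 * 2 := by ring
        _ ≤ A * X ^ 18 * X := by
            apply mul_le_mul_of_nonneg_left (by linarith) (by positivity)
        _ = _ := by ring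
    linarith
  · refine le_trans ?_ h2
    have hA0 : 0 ≤ A := by linarith
    apply mul_le_mul hAθ _ (by positivity) hA0
    exact pow_le_pow_right₀ (by linarith) (by norm_num)

end Vale.Agent.P181.T8
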