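import Vale.Agent.P181.T7.Asm7

set_option autoImplicit false

/-!
# P181, T8: the numbers of the merged theorem W with two heavy rows
-/

open Finset

namespace Vale.Agent.P181.T8

open Vale.Agent.P181.T4 Vale.Agent.P181.T7 Vale.Agent.P181.H280

/-- **(W+)** (owners 72, 921, 503) light rows `L`, the other tail rows are heavy. -/
def WPlus : Prop := ∀ (a b n : ℕ) (lam : Fin (n + 2) → ℕ) (L : Finset (Fin n)) (X : ℕ → ℕ)
  (s : ℕ), 1 ≤ a → Antitone lam → ∑ i, lam i = a * b → a ≤ X 1 →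
  (∀ r, 1 ≤ r → X r + ∑ i ∈ univ \ L, min (lam i.succ.succ) (X r + (r + 2) * a) + r * X r ≤
    r * X (r + 1)) → 1 ≤ s →
  ∑ i ∈ univ \ L, lam i.succ.succ + s * ∑ i ∈ L, lam i.succ.succ + X s ≤ s * b →
  plethMult a b (n + 2) lam ≤ plethMult b a (n + 2) lam

/-- the sequence for two heavy rows -/
def XX (a l3 l4 s0 s1 : ℕ) (s : ℕ) : ℕ :=
  if s < s0 then 2 * s ^ 3 * a else if s < s1 then 3 * s0 * a * s ^ 2 - l4
    else 4 * s0 * s1 * a * s - l3 - l4

lemma xx_sq {a l4 s0 s : ℕ} (h4 : l4 ≤ s0 ^ 3 * a) (hs : s0 ≤ s) :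
    l4 + 2 * s0 * s ^ 2 * a ≤ 3 * s0 * a * s ^ 2 := by
  have h1 : s0 ^ 3 * a ≤ s0 * s ^ 2 * a := by
    have h2 : s0 ^ 2 ≤ s ^ 2 := Nat.pow_le_pow_left hs 2
    calc s0 ^ 3 * a = s0 * s0 ^ 2 * a := by ring
      _ ≤ s0 * s ^ 2 * a := by gcongr
  calc l4 + 2 * s0 * s ^ 2 * a ≤ s0 * s ^ 2 * a + 2 * s0 * s ^ 2 * a := by omega
    _ = 3 * s0 * a * s ^ 2 := by ring

lemma xx_lin {a l3 l4 s0 s1 s : ℕ} (h4 : l4 ≤ s0 ^ 3 * a) (h3 : l3 ≤ s0 * s1 ^ 2 * a)
    (h01 : s0 ≤ s1) (hs : s1 ≤ s) : l3 + 3 * s0 * a * s1 ^ 2 ≤ 4 * s0 * s1 * a * s := by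
  calc l3 + 3 * s0 * a * s1 ^ 2 ≤ s0 * s1 ^ 2 * a + 3 * s0 * a * s1 ^ 2 := by omega
    _ = 4 * s0 * s1 * a * s1 := by ring
    _ ≤ 4 * s0 * s1 * a * s := Nat.mul_le_mul_left _ hs

/-- The recursion inequality. -/
theorem xx_rec {a l3 l4 s0 s1 : ℕ} (hs0 : 1 ≤ s0) (h01 : s0 ≤ s1) (h4 : l4 ≤ s0 ^ 3 * a)
    (h3 : l3 ≤ s0 * s1 ^ 2 * a) (r : ℕ) (hr : 1 ≤ r) :
    XX a l3 l4 s0 s1 r + (min l3 (XX a l3 l4 s0 s1 r + (r + 2) * a) +
      min l4 (XX a l3 l4 s0 s1 r + (r + 2) * a)) + r * XX a l3 l4 s0 s1 r ≤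
      r * XX a l3 l4 s0 s1 (r + 1) := by
  rcases lt_or_ge r s0 with hrs | hrs
  · -- phase I
    have hX : XX a l3 l4 s0 s1 r = 2 * r ^ 3 * a := by rw [XX, if_pos hrs]
    have hX1 : 2 * (r + 1) ^ 3 * a ≤ XX a l3 l4 s0 s1 (r + 1) := by
      rcases lt_or_ge (r + 1) s0 with h | h
      · rw [XX, if_pos h]
      · have he : r + 1 = s0 := by omega
        have h5 := xx_sq h4 (le_refl s0)
        have h6 : 2 * (r + 1) ^ 3 * a ≤ 3 * s0 * a * s0 ^ 2 - l4 := by
          rw [he]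
          have : 2 * s0 ^ 3 * a = 2 * s0 * s0 ^ 2 * a := by ring
          omega
        rcases lt_or_ge (r + 1) s1 with h' | h'
        · rw [XX, if_neg (by omega), if_pos h', he]
          rw [he] at h6
          exact h6
        · have he1 : s1 = s0 := by omega
          have h7 := xx_lin (s := s0) h4 h3 h01 (by omega)
          rw [XX, if_neg (by omega), if_neg (by omega), he]
          rw [he] at h6
          rw [he1] at h7 ⊢
          omega
    rw [hX]
    have hm1 : min l3 (2 * r ^ 3 * a + (r + 2) * a) ≤ 2 * r ^ 3 * a + (r + 2) * a :=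
      min_le_right _ _
    have hm2 : min l4 (2 * r ^ 3 * a + (r + 2) * a) ≤ 2 * r ^ 3 * a + (r + 2) * a :=
      min_le_right _ _
    have h8 : r * (2 * (r + 1) ^ 3 * a) ≤ r * XX a l3 l4 s0 s1 (r + 1) :=
      Nat.mul_le_mul_left _ hX1
    refine le_trans ?_ h8
    have h9 : 2 * r ^ 3 * a + (2 * (2 * r ^ 3 * a + (r + 2) * a)) + r * (2 * r ^ 3 * a) ≤
        r * (2 * (r + 1) ^ 3 * a) := by
      have h10 : 4 ≤ 6 * r ^ 2 := by nlinarith
      have h11 : r * (2 * (r + 1) ^ 3 * a) = 2 * r ^ 3 * a + (2 * (2 * r ^ 3 * a + r * a)) +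
          r * (2 * r ^ 3 * a) + (6 * r ^ 2) * a := by ring
      have h12 : 2 * r ^ 3 * a + (2 * (2 * r ^ 3 * a + (r + 2) * a)) + r * (2 * r ^ 3 * a) =
          2 * r ^ 3 * a + (2 * (2 * r ^ 3 * a + r * a)) + r * (2 * r ^ 3 * a) + 4 * a := by ring
      rw [h11, h12]
      exact Nat.add_le_add_left (Nat.mul_le_mul_right _ h10) _
    omega
  · rcases lt_or_ge r s1 with hr1 | hr1
    · -- phase II
      obtain ⟨x, hx⟩ : ∃ x, 3 * s0 * a * r ^ 2 = x + l4 := by
        have := xx_sq h4 hrs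
        exact ⟨3 * s0 * a * r ^ 2 - l4, by omega⟩
      have hX : XX a l3 l4 s0 s1 r = x := by
        rw [XX, if_neg (by omega), if_pos hr1]
        omega
      have hX1 : 3 * s0 * a * (r + 1) ^ 2 ≤ XX a l3 l4 s0 s1 (r + 1) + l4 := by
        rcases lt_or_ge (r + 1) s1 with h | h
        · rw [XX, if_neg (by omega), if_pos h]
          omega
        · have he : r + 1 = s1 := by omega
          have h7 := xx_lin (s := s1) h4 h3 h01 le_rfl
          have h5 := xx_sq h4 h01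
          rw [XX, if_neg (by omega), if_neg (by omega), he]
          omega
      rw [hX]
      have hm1 : min l3 (x + (r + 2) * a) ≤ x + (r + 2) * a := min_le_right _ _
      have hm2 : min l4 (x + (r + 2) * a) ≤ l4 := min_le_left _ _
      have h8 : r * (3 * s0 * a * (r + 1) ^ 2) ≤ r * (XX a l3 l4 s0 s1 (r + 1) + l4) :=
        Nat.mul_le_mul_left _ hX1
      have h9 : r * (3 * s0 * a * (r + 1) ^ 2) =
          r * (x + l4) + 2 * (x + l4) + 3 * s0 * a * r := by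
        rw [← hx]
        ring
      have h10 : (r + 2) * a ≤ 3 * s0 * a * r := by
        calc (r + 2) * a ≤ (3 * r) * a := Nat.mul_le_mul_right _ (by omega)
          _ = 3 * 1 * a * r := by ring
          _ ≤ 3 * s0 * a * r := by gcongr
      have h11 : r * (XX a l3 l4 s0 s1 (r + 1) + l4) =
          r * XX a l3 l4 s0 s1 (r + 1) + r * l4 := by ring
      have h12 : r * (x + l4) = r * x + r * l4 := by ring
      omega
    · -- phase III
      obtain ⟨x, hx⟩ : ∃ x, 4 * s0 * s1 * a * r = x + l3 + l4 := by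
        have h7 := xx_lin h4 h3 h01 hr1
        have h5 := xx_sq h4 h01
        exact ⟨4 * s0 * s1 * a * r - l3 - l4, by omega⟩
      have hX : XX a l3 l4 s0 s1 r = x := by
        rw [XX, if_neg (by omega), if_neg (by omega)]
        omega
      have hX1 : XX a l3 l4 s0 s1 (r + 1) = x + 4 * s0 * s1 * a := by
        rw [XX, if_neg (by omega), if_neg (by omega)]
        have : 4 * s0 * s1 * a * (r + 1) = 4 * s0 * s1 * a * r + 4 * s0 * s1 * a := by ring
        omega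
      rw [hX, hX1]
      have hm1 : min l3 (x + (r + 2) * a) ≤ l3 := min_le_left _ _
      have hm2 : min l4 (x + (r + 2) * a) ≤ l4 := min_le_left _ _
      have h9 : r * (x + 4 * s0 * s1 * a) = r * x + 4 * s0 * s1 * a * r := by ring
      omega

lemma xx_one {a l3 l4 s0 s1 : ℕ} (hs0 : 1 ≤ s0) (h01 : s0 ≤ s1) (h4 : l4 ≤ s0 ^ 3 * a)
    (h3 : l3 ≤ s0 * s1 ^ 2 * a) : a ≤ XX a l3 l4 s0 s1 1 := by
  rcases lt_or_ge 1 s0 with h | h
  · rw [XX, if_pos h]
    omega
  · have he : s0 = 1 := by omega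
    subst he
    rcases lt_or_ge 1 s1 with h' | h'
    · rw [XX, if_neg (by omega), if_pos h']
      have := xx_sq h4 le_rfl
      omega
    · have he1 : s1 = 1 := by omega
      subst he1
      have h7 := xx_lin (s := 1) h4 h3 h01 le_rfl
      have h5 := xx_sq h4 h01
      rw [XX, if_neg (by omega), if_neg (by omega)]
      omega

/-- **Two heavy rows.** -/
theorem w_two (hW : WPlus) {a b n : ℕ} (lam : Fin (n + 2 + 2) → ℕ) (ha : 1 ≤ a)
    (hlam : Antitone lam) (hsum : ∑ i, lam i = a * b) (s0 s1 : ℕ) (hs0 : 1 ≤ s0) (h01 : s0 ≤ s1)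
    (h4 : lam 3 ≤ s0 ^ 3 * a) (h3 : lam 2 ≤ s0 * s1 ^ 2 * a)
    (hb : ∑ i : Fin n, lam i.succ.succ.succ.succ + 4 * s0 * s1 * a ≤ b) :
    plethMult a b (n + 2 + 2) lam ≤ plethMult b a (n + 2 + 2) lam := by
  classical
  set L : Finset (Fin (n + 2)) := univ.filter fun i => 2 ≤ (i : ℕ) with hL
  have hH : (univ : Finset (Fin (n + 2))) \ L = {0, 1} := by
    ext i
    simp only [hL, mem_sdiff, mem_univ, true_and, mem_filter, mem_insert, mem_singleton, not_le]
    constructor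
    · intro hi
      rcases Nat.lt_or_ge (i : ℕ) 1 with h | h
      · left
        ext
        simp only [Fin.val_zero]
        omega
      · right
        ext
        simp only [Fin.val_one]
        omega
    · rintro (rfl | rfl)
      · simp
      · simp
  have hsumH : ∀ f : Fin (n + 2) → ℕ, ∑ i ∈ univ \ L, f i = f 0 + f 1 := by
    intro f
    rw [hH, Finset.sum_pair]
    intro h
    have := congrArg Fin.val h
    simp at this
  have hsumL : ∀ f : Fin (n + 2) → ℕ, ∑ i ∈ L, f i = ∑ i : Fin n, f i.succ.succ := by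
    intro f
    have h1 : ∑ i ∈ univ \ L, f i + ∑ i ∈ L, f i = ∑ i, f i :=
      Finset.sum_sdiff (Finset.subset_univ _)
    rw [hsumH, Fin.sum_univ_succ, Fin.sum_univ_succ] at h1
    have h2 : (Fin.succ 0 : Fin (n + 2)) = 1 := rfl
    rw [h2] at h1
    omega
  have hl2 : lam (Fin.succ (Fin.succ (0 : Fin (n + 2)))) = lam 2 := rfl
  have hl3 : lam (Fin.succ (Fin.succ (1 : Fin (n + 2)))) = lam 3 := rfl
  apply hW a b (n + 2) lam L (XX a (lam 2) (lam 3) s0 s1) s1 ha hlam hsum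
    (xx_one hs0 h01 h4 h3) _ (hs0.trans h01) _
  · intro r hr
    rw [hsumH, hl2, hl3]
    exact xx_rec hs0 h01 h4 h3 r hr
  · rw [hsumH, hsumL, hl2, hl3]
    have h7 := xx_lin (s := s1) h4 h3 h01 le_rfl
    have h5 := xx_sq h4 h01
    rw [XX, if_neg (by omega), if_neg (by omega)]
    have h8 : s1 * (∑ i : Fin n, lam i.succ.succ.succ.succ + 4 * s0 * s1 * a) ≤ s1 * b :=
      Nat.mul_le_mul_left _ hb
    have h9 : s1 * (∑ i : Fin n, lam i.succ.succ.succ.succ + 4 * s0 * s1 * a) =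
        s1 * (∑ i : Fin n, lam i.succ.succ.succ.succ) + 4 * s0 * s1 * a * s1 := by ring
    omega

end Vale.Agent.P181.T8
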