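import Vale.Agent.P181.H403.Fin8
import Vale.Agent.P181.H403.Split8
import Vale.Agent.P181.H310.LBg
import Vale.Agent.P181.H503.CaseII8Fin
import Vale.Agent.P181.H921.WLit
import Vale.Agent.P181.H463.Big

set_option autoImplicit false

/-!
# P181, T8: the theorem, from S6.LB9
-/

open Filter

namespace Vale.Agent.P181.T8

open Vale.Agent.P181.T4 Vale.Agent.P181.T7 Vale.Agent.P181.H280

theorem caseIt_zero (h9 : S6.LB9) : CaseIt 0 := caseI_zero h9

/-- for `b ≥ a ^ (1 + ε)`: `below j lam ≥ a ^ (1 + t + ε)` and `j * t ≥ 1`. -/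
theorem f8 (h9 : S6.LB9) {t : ℝ} {j : ℕ} (ht0 : 0 < t) (ht : t ≤ 1 / 2) (hj : 2 ≤ j)
    (hjt : 1 ≤ (j : ℝ) * t) : F8 t j :=
  f8_of (caseIt_zero h9) H503.caseII8_full split8 H463.big_stmt le_rfl ht0.le ht0 ht hj hjt

/-- **T8**: `b ≥ a ^ (47 / 36 + ε)`, all partitions with at most `a` rows. -/
theorem t8 (h9 : S6.LB9) (ε : ℝ) (hε : 0 < ε) : ∀ᶠ a : ℕ in atTop, ∀ b : ℕ,
    (a : ℝ) ^ (47 / 36 + ε) ≤ b → ∀ lam : Fin a → ℕ, Antitone lam → ∑ i, lam i = a * b →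
      plethMult a b a lam ≤ plethMult b a a lam :=
  final8 TW.w_plus (f8 h9 (by norm_num) le_rfl le_rfl (by norm_num))
    (f8 h9 (by norm_num) (by norm_num) (by norm_num) (by norm_num))
    (f8 h9 (by norm_num) (by norm_num) (by norm_num) (by norm_num)) ε hε

end Vale.Agent.P181.T8
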