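import Vale.Agent.P181.H403.Fin8

set_option autoImplicit false

/-!
# P181, T8: `b ≥ a ^ (5 / 4 + ε)` from the types with unequal rows
-/

open Finset Filter

namespace Vale.Agent.P181.T8

open Vale.Agent.P181.T4 Vale.Agent.P181.T7 Vale.Agent.P181.H280

/-- **(F34)** `λ_3 ^ 2 * λ_4 ≥ a ^ (4 + ε)`. -/
def F34 : Prop := ∀ ε : ℝ, 0 < ε → ∀ᶠ a : ℕ in atTop, ∀ b : ℕ, (a : ℝ) ^ (1 + ε) ≤ b →
  ∀ lam : Fin a → ℕ, Antitone lam → ∑ i, lam i = a * b →
    (a : ℝ) ^ (4 + ε) ≤ (ex lam 2 : ℝ) ^ 2 * ex lam 3 → plethMult a b a lam ≤ plethMult b a a lam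

/-- **T8, second form**: `b ≥ a ^ (5 / 4 + ε)`. -/
theorem final54 (hW : WPlus) (f2 : F8 (1 / 2) 2) (f4 : F8 (1 / 4) 4) (f34 : F34)
    (ε : ℝ) (hε : 0 < ε) : ∀ᶠ a : ℕ in atTop, ∀ b : ℕ, (a : ℝ) ^ (5 / 4 + ε) ≤ b →
    ∀ lam : Fin a → ℕ, Antitone lam → ∑ i, lam i = a * b →
      plethMult a b a lam ≤ plethMult b a a lam := by
  filter_upwards [w_real hW (ε / 2) (by positivity), f2 (ε / 8) (by positivity),
    f4 (ε / 8) (by positivity), f34 (ε / 8) (by positivity), eventually_ge_atTop 2] with a hw h2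
    h4 h34 ha b hb lam hlam hsum
  have ha1 : (1 : ℝ) < a := by exact_mod_cast (by omega : 1 < a)
  have ha0 : (0 : ℝ) < a := by linarith
  have hb1 : (a : ℝ) ^ (1 + ε / 8) ≤ b :=
    (Real.rpow_le_rpow_of_exponent_le ha1.le (by linarith)).trans hb
  by_cases d2 : (a : ℝ) ^ (1 + 1 / 2 + ε / 8) ≤ below 2 lam
  · exact h2 b hb1 lam hlam hsum d2
  by_cases d4 : (a : ℝ) ^ (1 + 1 / 4 + ε / 8) ≤ below 4 lam
  · exact h4 b hb1 lam hlam hsum d4
  by_cases d34 : (a : ℝ) ^ (4 + ε / 8) ≤ (ex lam 2 : ℝ) ^ 2 * ex lam 3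
  · exact h34 b hb1 lam hlam hsum d34
  push Not at d2 d4 d34
  have e2 : (ex lam 2 : ℝ) ≤ below 2 lam := by exact_mod_cast ex_le_below lam 2
  have hbb : (a : ℝ) ^ (1 + (1 / 4 + ε / 32) + ε / 2) ≤ b :=
    (Real.rpow_le_rpow_of_exponent_le ha1.le (by linarith)).trans hb
  have hd4 : (below 4 lam : ℝ) ≤ (a : ℝ) ^ (1 + (1 / 4 + ε / 32) + ε / 2 / 4) :=
    d4.le.trans (Real.rpow_le_rpow_of_exponent_le ha1.le (by linarith))
  rcases le_or_gt (ex lam 3 : ℝ) a with h3 | h3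
  · refine hw (1 / 2) 0 (1 / 4 + ε / 32) b lam le_rfl (by norm_num) (by linarith) hbb hlam hsum
      ((e2.trans d2.le).trans (Real.rpow_le_rpow_of_exponent_le ha1.le (by linarith))) ?_ hd4
    calc (ex lam 3 : ℝ) ≤ a := h3
      _ = (a : ℝ) ^ (1 : ℝ) := (Real.rpow_one _).symm
      _ ≤ _ := Real.rpow_le_rpow_of_exponent_le ha1.le (by linarith)
  · have h23 : (ex lam 3 : ℝ) ≤ ex lam 2 := by exact_mod_cast ex_anti hlam (by norm_num)
    have h3p : (0 : ℝ) < ex lam 3 := by linarith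
    have h2p : (0 : ℝ) < ex lam 2 := by linarith
    have hla : 0 < Real.log a := Real.log_pos ha1
    have q4 : (ex lam 3 : ℝ) = (a : ℝ) ^ (Real.log (ex lam 3) / Real.log a) := by
      rw [Real.rpow_def_of_pos ha0, mul_div_cancel₀ _ hla.ne', Real.exp_log h3p]
    have q3 : (ex lam 2 : ℝ) = (a : ℝ) ^ (Real.log (ex lam 2) / Real.log a) := by
      rw [Real.rpow_def_of_pos ha0, mul_div_cancel₀ _ hla.ne', Real.exp_log h2p]
    obtain ⟨x4, hx4⟩ : ∃ x, x = Real.log (ex lam 3) / Real.log a := ⟨_, rfl⟩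
    obtain ⟨x3, hx3⟩ : ∃ x, x = Real.log (ex lam 2) / Real.log a := ⟨_, rfl⟩
    rw [← hx4] at q4
    rw [← hx3] at q3
    have h1 : 1 ≤ x4 := by
      rw [hx4, le_div_iff₀ hla, one_mul]
      exact Real.log_le_log ha0 h3.le
    have h43 : x4 ≤ x3 := by
      rw [hx4, hx3]
      exact div_le_div_of_nonneg_right (Real.log_le_log h3p h23) hla.le
    have hsum4 : 2 * x3 + x4 < 4 + ε / 8 := by
      rw [q3, q4, ← Real.rpow_natCast, ← Real.rpow_mul ha0.le, ← Real.rpow_add ha0] at d34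
      have := (Real.rpow_lt_rpow_left_iff ha1).1 d34
      push_cast at this
      linarith
    refine hw (x3 - 1) (x4 - 1) (1 / 4 + ε / 32) b lam (by linarith) (by linarith) (by linarith)
      hbb hlam hsum ?_ ?_ hd4
    · conv_lhs => rw [q3]
      exact Real.rpow_le_rpow_of_exponent_le ha1.le (by linarith)
    · conv_lhs => rw [q4]
      exact Real.rpow_le_rpow_of_exponent_le ha1.le (by linarith)

end Vale.Agent.P181.T8
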