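import Vale.Agent.P181.H403.Dec2
import Vale.Agent.P181.H503.CaseII
import Vale.Agent.P181.H539.UpStmt
import Vale.Agent.P181.H310.LB7

set_option autoImplicit false

/-! # P181, T7: case II, unconditional -/

namespace Vale.Agent.P181.H403

/-- the arithmetic of case II in the literal of helper503 -/
theorem dec2_stmt : Vale.Agent.P181.H503.Dec2Stmt := by
  intro a b R r N0 k0 lam h1 h2 h3 h4 h5 h6 h7 h8 h9 h10 h11
  exact dec2 h1 h2 h3 h4 h5 h6 h7 h8 h9 h10 h11

/-- **(Case II)** -/
theorem caseII : Vale.Agent.P181.T7.CaseII :=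
  Vale.Agent.P181.H503.caseII_of Vale.Agent.P181.H539.up_stmt Vale.Agent.P181.H310.lb7 dec2_stmt

end Vale.Agent.P181.H403
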