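import Vale.Agent.P181.T4.Asm
import Vale.Agent.P181.H502.Dec

set_option autoImplicit false

/-! # P181, T7: the arithmetic of the decomposition

`dec_use`: the shape `mu` = long columns, `r j` columns of length `j ≤ R`, and its numbers;
`dec2`: the arithmetic of case II. -/

namespace Vale.Agent.P181.H403

open Vale.Agent.P181.T4 Vale.Agent.P181.H280

/-- the shape with the long columns of `lam` and `r j` columns of length `j`, `1 ≤ j ≤ R` -/
def shp {n : ℕ} (lam : Fin n → ℕ) (R : ℕ) (r : ℕ → ℕ) : Fin n → ℕ := fun s =>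
  ex lam (max s R) + ∑ j ∈ Finset.Icc 1 R, if (s : ℕ) < j then r j else 0

lemma shp_anti {n : ℕ} {lam : Fin n → ℕ} (h : Antitone lam) (R : ℕ) (r : ℕ → ℕ) :
    Antitone (shp lam R r) := by
  intro s s' hs
  have hs' : (s : ℕ) ≤ s' := hs
  unfold shp
  refine Nat.add_le_add (ex_anti h (max_le_max hs' le_rfl)) (Finset.sum_le_sum fun j _ => ?_)
  split_ifs with h1 h2
  · exact le_rfl
  · omega
  · exact Nat.zero_le _
  · exact le_rfl

lemma low_shp {n : ℕ} (lam : Fin n → ℕ) (R : ℕ) (r : ℕ → ℕ) :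
    low R (shp lam R r) = low R lam := by
  funext i
  have hi := i.isLt
  unfold low
  rw [ex_of_lt _ (by omega)]
  unfold shp
  simp only
  rw [max_eq_left (by omega), Finset.sum_eq_zero, add_zero]
  intro j hj
  rw [Finset.mem_Icc] at hj
  rw [if_neg (by omega)]

/-- telescoping -/
lemma ex_tele {n : ℕ} {lam : Fin n → ℕ} (h : Antitone lam) (R s : ℕ) :
    ex lam s = ex lam (max s R) +
      ∑ j ∈ Finset.Icc 1 R, if s < j then ex lam (j - 1) - ex lam j else 0 := by
  induction R with
  | zero => simp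
  | succ R ih =>
    rw [Finset.sum_Icc_succ_top (by omega)]
    by_cases hs : s ≤ R
    · rw [max_eq_right hs] at ih
      rw [max_eq_right (by omega), if_pos (by omega), Nat.add_sub_cancel]
      have h9 : ex lam (R + 1) ≤ ex lam R := ex_anti h (Nat.le_succ R)
      omega
    · rw [max_eq_left (by omega)] at ih
      rw [max_eq_left (by omega), if_neg (by omega)]
      omega

/-- `∑_s [s < j] = j` for `j ≤ n` -/
lemma sum_lt {n j : ℕ} (hj : j ≤ n) (x : ℕ) :
    ∑ s : Fin n, (if (s : ℕ) < j then x else 0) = j * x := by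
  rw [Finset.sum_ite, Finset.sum_const_zero, add_zero, Finset.sum_const, smul_eq_mul]
  congr 1
  rw [Fin.card_filter_val_lt, min_eq_right hj]

lemma sum_sum_lt {n R : ℕ} (hR : R ≤ n) (r : ℕ → ℕ) :
    ∑ s : Fin n, ∑ j ∈ Finset.Icc 1 R, (if (s : ℕ) < j then r j else 0) =
      ∑ j ∈ Finset.Icc 1 R, j * r j := by
  rw [Finset.sum_comm]
  refine Finset.sum_congr rfl fun j hj => ?_
  rw [Finset.mem_Icc] at hj
  exact sum_lt (by omega) _

/-- the number of the cells of the long columns -/
def lng {n : ℕ} (lam : Fin n → ℕ) (R : ℕ) : ℕ := ∑ s : Fin n, ex lam (max s R)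

lemma sum_shp {n R : ℕ} (hR : R ≤ n) (lam : Fin n → ℕ) (r : ℕ → ℕ) :
    ∑ s, shp lam R r s = lng lam R + ∑ j ∈ Finset.Icc 1 R, j * r j := by
  unfold shp lng
  rw [Finset.sum_add_distrib, sum_sum_lt hR]

/-- `lng = R * ex lam R + ∑ low` -/
lemma lng_eq {n R : ℕ} (hR : R ≤ n) (lam : Fin n → ℕ) :
    lng lam R = R * ex lam R + ∑ i, low R lam i := by
  have h1 := sum_split hR (shp lam R (fun _ => 0))
  rw [low_shp] at h1
  have h2 : ∑ s, shp lam R (fun _ => 0) s = lng lam R := by
    unfold shp lng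
    simp
  rw [h2] at h1
  rw [h1]
  congr 1
  rw [Finset.sum_congr rfl (g := fun _ => ex lam R), Finset.sum_const, Finset.card_range,
    smul_eq_mul]
  intro i hi
  rw [Finset.mem_range] at hi
  rw [ex_of_lt _ (by omega)]
  unfold shp
  simp only [ite_self, Finset.sum_const_zero, add_zero]
  rw [max_eq_right (by omega)]

/-- the columns of length `j` -/
def cg {n : ℕ} (lam : Fin n → ℕ) (j : ℕ) : ℕ := ex lam (j - 1) - ex lam j

lemma sum_cells {a R : ℕ} {lam : Fin a → ℕ} (hlam : Antitone lam) (hRa : R ≤ a) :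
    ∑ s, lam s = lng lam R + ∑ j ∈ Finset.Icc 1 R, j * cg lam j := by
  have hlam_eq : ∀ s : Fin a, lam s = ex lam (max s R) +
      ∑ j ∈ Finset.Icc 1 R, if (s : ℕ) < j then cg lam j else 0 := by
    intro s
    have h := ex_tele hlam R s
    rw [ex_of_lt lam s.2] at h
    exact h
  rw [Finset.sum_congr rfl (fun s _ => hlam_eq s), Finset.sum_add_distrib, sum_sum_lt hRa]
  rfl

/-- **the decomposition**: `k ≡ a`, `N ≡ B' mod 2 i`. -/
theorem dec_use {a b R i k N : ℕ} {lam : Fin a → ℕ} (hlam : Antitone lam)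
    (hsum : ∑ s, lam s = a * b) (hRa : R < a) (hi : 1 ≤ i) (hiR : i ≤ R) (hiN : i ≤ N)
    (r c : ℕ → ℕ) (hrc : ∀ j, 1 ≤ j → j ≤ R → j ≠ i → cg lam j = r j + 2 * a * c j)
    (hk : k ≤ a) (h2k : 2 * i ∣ a - k)
    (hB : N + 2 * ∑ j ∈ (Finset.Icc 1 R).erase i, j * c j ≤ b)
    (h2N : 2 * i ∣ b - (N + 2 * ∑ j ∈ (Finset.Icc 1 R).erase i, j * c j))
    (hDN : lng lam R + ∑ j ∈ (Finset.Icc 1 R).erase i, j * r j ≤ k * N) :
    ∃ ri : ℕ, i * ri + (lng lam R + ∑ j ∈ (Finset.Icc 1 R).erase i, j * r j) = k * N ∧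
      ∑ s, shp lam R (Function.update r i ri) s = k * N ∧
      plethMult N k a (shp lam R (Function.update r i ri)) ≤ plethMult b a a lam := by
  classical
  have hmem : i ∈ Finset.Icc 1 R := Finset.mem_Icc.2 ⟨hi, hiR⟩
  set D' : ℕ := lng lam R + ∑ j ∈ (Finset.Icc 1 R).erase i, j * r j with hD'
  set S : ℕ := ∑ j ∈ (Finset.Icc 1 R).erase i, j * c j with hS
  -- the sum of the cells
  have hlam_eq : ∀ s : Fin a, lam s = ex lam (max s R) +
      ∑ j ∈ Finset.Icc 1 R, if (s : ℕ) < j then cg lam j else 0 := by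
    intro s
    have h := ex_tele hlam R s
    rw [ex_of_lt lam s.2] at h
    exact h
  have htot : a * b = lng lam R + ∑ j ∈ Finset.Icc 1 R, j * cg lam j := by
    rw [← hsum, Finset.sum_congr rfl (fun s _ => hlam_eq s), Finset.sum_add_distrib,
      sum_sum_lt hRa.le]
    rfl
  have htot2 : ∑ j ∈ Finset.Icc 1 R, j * cg lam j = i * cg lam i +
      (∑ j ∈ (Finset.Icc 1 R).erase i, j * r j + 2 * a * S) := by
    rw [← Finset.add_sum_erase _ _ hmem]
    congr 1
    rw [hS, Finset.mul_sum, ← Finset.sum_add_distrib]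
    refine Finset.sum_congr rfl fun j hj => ?_
    rw [Finset.mem_erase, Finset.mem_Icc] at hj
    rw [hrc j hj.2.1 hj.2.2 hj.1]
    ring
  have htot3 : a * b = i * cg lam i + D' + 2 * a * S := by
    rw [htot, htot2, hD']
    ring
  obtain ⟨q, hq⟩ := h2k
  obtain ⟨p, hp⟩ := h2N
  have ha : a = k + 2 * i * q := by omega
  have hb : b = N + 2 * S + 2 * i * p := by omega
  -- `i g_i = (N k - D') + N (a - k) + a (B' - N)`
  have e1 : i * cg lam i + D' = k * N + N * (2 * i * q) + a * (2 * i * p) := by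
    have h1 : a * b = a * N + 2 * a * S + a * (2 * i * p) := by
      rw [hb]
      ring
    have h2 : a * N = k * N + N * (2 * i * q) := by
      conv_lhs => rw [ha]
      ring
    omega
  have e2 : i * cg lam i = (k * N - D') + i * (2 * N * q) + i * (2 * a * p) := by
    have h1 : N * (2 * i * q) = i * (2 * N * q) := by ring
    have h2 : a * (2 * i * p) = i * (2 * a * p) := by ring
    omega
  have hdiv : i ∣ k * N - D' := by
    have h1 : i ∣ i * cg lam i := dvd_mul_right _ _
    rw [e2] at h1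
    have h2 : i ∣ (k * N - D') + i * (2 * N * q) := (Nat.dvd_add_left (dvd_mul_right _ _)).1 h1
    exact (Nat.dvd_add_left (dvd_mul_right _ _)).1 h2
  obtain ⟨ri, hri⟩ := hdiv
  have e3 : cg lam i = ri + 2 * N * q + 2 * a * p := by
    rw [hri, ← mul_add, ← mul_add] at e2
    exact Nat.eq_of_mul_eq_mul_left hi e2
  have hupd : ∑ j ∈ Finset.Icc 1 R, j * Function.update r i ri j =
      i * ri + ∑ j ∈ (Finset.Icc 1 R).erase i, j * r j := by
    rw [← Finset.add_sum_erase _ _ hmem, Function.update_self]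
    congr 1
    refine Finset.sum_congr rfl fun j hj => ?_
    rw [Finset.mem_erase] at hj
    rw [Function.update_of_ne hj.1]
  have hsumk : ∑ s, shp lam R (Function.update r i ri) s = k * N := by
    rw [sum_shp hRa.le, hupd]
    omega
  refine ⟨ri, by omega, hsumk, ?_⟩
  have hx : i * (2 * N * q) = N * (a - k) := by
    rw [hq]
    ring
  have hmain := H502.dec a a N k i (2 * N * q) R (Function.update c i p)
    (shp lam R (Function.update r i ri)) lam hi hiN (by omega) hRa hRa.le hk ⟨q, hq⟩ hx ?_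
  · have hbb : N + ∑ j ∈ Finset.Icc 1 R, 2 * j * Function.update c i p j = b := by
      rw [← Finset.add_sum_erase _ _ hmem, Function.update_self]
      have : ∑ j ∈ (Finset.Icc 1 R).erase i, 2 * j * Function.update c i p j = 2 * S := by
        rw [hS, Finset.mul_sum]
        refine Finset.sum_congr rfl fun j hj => ?_
        rw [Finset.mem_erase] at hj
        rw [Function.update_of_ne hj.1]
        ring
      rw [this]
      omega
    rw [hbb] at hmain
    exact hmain
  · intro s
    rw [hlam_eq s]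
    unfold shp
    rw [add_assoc, add_assoc]
    congr 1
    rw [← Finset.add_sum_erase _ _ hmem, ← Finset.add_sum_erase _ (fun j =>
      if (s : ℕ) < j then Function.update r i ri j else 0) hmem, ← Finset.add_sum_erase _ (fun j =>
      if (s : ℕ) < j then 2 * a * Function.update c i p j else 0) hmem]
    simp only [Function.update_self]
    have h1 : ∑ j ∈ (Finset.Icc 1 R).erase i, (if (s : ℕ) < j then cg lam j else 0) =
        ∑ j ∈ (Finset.Icc 1 R).erase i, (if (s : ℕ) < j then Function.update r i ri j else 0) +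
        ∑ j ∈ (Finset.Icc 1 R).erase i,
          (if (s : ℕ) < j then 2 * a * Function.update c i p j else 0) := by
      rw [← Finset.sum_add_distrib]
      refine Finset.sum_congr rfl fun j hj => ?_
      rw [Finset.mem_erase, Finset.mem_Icc] at hj
      rw [Function.update_of_ne hj.1, Function.update_of_ne hj.1]
      split_ifs
      · exact hrc j hj.2.1 hj.2.2 hj.1
      · rfl
    rw [h1]
    split_ifs
    · rw [e3]
      ring
    · ring

end Vale.Agent.P181.H403
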