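import Vale.Agent.P181.H403.Spec8
import Vale.Agent.P181.H403.WNum

set_option autoImplicit false

/-!
# P181, T8: the real numbers of W and the last assembly
-/

open Finset Filter

namespace Vale.Agent.P181.T8

open Vale.Agent.P181.T4 Vale.Agent.P181.T7 Vale.Agent.P181.H280

/-- **Few cells below the second row**, in powers of `a`; the threshold does not depend on the
exponents. -/
theorem w_real (hW : WPlus) (ε : ℝ) (hε : 0 < ε) : ∀ᶠ a : ℕ in atTop, ∀ (t3 t4 g : ℝ) (b : ℕ)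
    (lam : Fin a → ℕ), 0 ≤ t4 → t4 ≤ t3 → t3 / 2 + t4 / 6 ≤ g → (a : ℝ) ^ (1 + g + ε) ≤ b →
    Antitone lam → ∑ i, lam i = a * b → (ex lam 2 : ℝ) ≤ (a : ℝ) ^ (1 + t3 + ε / 4) →
    (ex lam 3 : ℝ) ≤ (a : ℝ) ^ (1 + t4 + ε / 4) → (below 4 lam : ℝ) ≤ (a : ℝ) ^ (1 + g + ε / 4) →
    plethMult a b a lam ≤ plethMult b a a lam := by
  have hlim : ∀ᶠ a : ℕ in atTop, (17 : ℝ) ≤ (a : ℝ) ^ (ε / 2) := by
    have h1 : Tendsto (fun a : ℕ => (a : ℝ) ^ (ε / 2)) atTop atTop :=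
      (tendsto_rpow_atTop (by positivity)).comp tendsto_natCast_atTop_atTop
    exact h1.eventually_ge_atTop 17
  filter_upwards [hlim, eventually_ge_atTop 4] with a h17 ha4 t3 t4 g b lam ht4 ht34 hg hb hlam
    hsum h3 h4 h5
  have ha1 : (1 : ℝ) ≤ a := by exact_mod_cast (by omega : 1 ≤ a)
  have ha0 : (0 : ℝ) < a := by linarith
  obtain ⟨n, rfl⟩ : ∃ n, a = n + 2 + 2 := ⟨a - 4, by omega⟩
  set A : ℝ := ((n + 2 + 2 : ℕ) : ℝ) with hA
  -- the two numbers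
  have hp0 : 1 ≤ A ^ (t4 / 3 + ε / 4) := Real.one_le_rpow ha1 (by positivity)
  have hp01 : A ^ (t4 / 3 + ε / 4) ≤ A ^ (t3 / 2 - t4 / 6 + ε / 4) :=
    Real.rpow_le_rpow_of_exponent_le ha1 (by linarith)
  obtain ⟨p0, hp0def⟩ : ∃ x : ℝ, x = A ^ (t4 / 3 + ε / 4) := ⟨_, rfl⟩
  obtain ⟨p1, hp1def⟩ : ∃ x : ℝ, x = A ^ (t3 / 2 - t4 / 6 + ε / 4) := ⟨_, rfl⟩
  rw [← hp0def] at hp0 hp01
  rw [← hp1def] at hp01
  have hp1 : 1 ≤ p1 := hp0.trans hp01
  obtain ⟨s0, hs0def⟩ : ∃ x : ℕ, x = ⌈p0⌉₊ := ⟨_, rfl⟩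
  obtain ⟨s1, hs1def⟩ : ∃ x : ℕ, x = ⌈p1⌉₊ := ⟨_, rfl⟩
  have hs0 : p0 ≤ s0 := by rw [hs0def]; exact Nat.le_ceil _
  have hs1 : p1 ≤ s1 := by rw [hs1def]; exact Nat.le_ceil _
  have hs0' : (s0 : ℝ) ≤ 2 * p0 := by
    have h1 := (Nat.ceil_lt_add_one (show 0 ≤ p0 by linarith)).le
    rw [← hs0def] at h1
    linarith
  have hs1' : (s1 : ℝ) ≤ 2 * p1 := by
    have h1 := (Nat.ceil_lt_add_one (show 0 ≤ p1 by linarith)).le
    rw [← hs1def] at h1
    linarith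
  have h01 : s0 ≤ s1 := by
    rw [hs0def, hs1def]
    exact Nat.ceil_mono hp01
  have hs01 : 1 ≤ s0 := by
    have : (0 : ℝ) < s0 := by linarith
    exact_mod_cast this
  have e2 : ex lam 2 = lam 2 := by
    rw [ex, dif_pos (by omega)]
    rfl
  have e3 : ex lam 3 = lam 3 := by
    rw [ex, dif_pos (by omega)]
    rfl
  have hbel : below 4 lam = ∑ i : Fin n, lam i.succ.succ.succ.succ := by
    unfold below
    rw [Finset.sum_Ico_eq_sum_range, show n + 2 + 2 - 4 = n by omega, Finset.sum_range]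
    apply Finset.sum_congr rfl
    intro i _
    rw [ex, dif_pos (by omega)]
    congr 1
    ext
    simp
    omega
  have q0 : p0 ^ 3 = A ^ (t4 + 3 * (ε / 4)) := by
    rw [hp0def, ← Real.rpow_natCast, ← Real.rpow_mul ha0.le]
    congr 1
    push_cast
    ring
  have q1 : p0 * p1 ^ 2 = A ^ (t3 + 3 * (ε / 4)) := by
    rw [hp0def, hp1def, ← Real.rpow_natCast, ← Real.rpow_mul ha0.le, ← Real.rpow_add ha0]
    congr 1
    push_cast
    ring
  have q2 : p0 * p1 = A ^ (t3 / 2 + t4 / 6 + ε / 2) := by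
    rw [hp0def, hp1def, ← Real.rpow_add ha0]
    congr 1
    ring
  have c4 : lam 3 ≤ s0 ^ 3 * (n + 2 + 2) := by
    rw [← e3]
    have h6 : ((ex lam 3 : ℕ) : ℝ) ≤ ((s0 ^ 3 * (n + 2 + 2) : ℕ) : ℝ) := by
      have h7 : ((s0 ^ 3 * (n + 2 + 2) : ℕ) : ℝ) = (s0 : ℝ) ^ 3 * A := by
        rw [hA]
        push_cast
        ring
      rw [h7]
      calc (ex lam 3 : ℝ) ≤ A ^ (1 + t4 + ε / 4) := h4
        _ ≤ A ^ (t4 + 3 * (ε / 4) + 1) := Real.rpow_le_rpow_of_exponent_le ha1 (by linarith)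
        _ = p0 ^ 3 * A := by rw [Real.rpow_add ha0, Real.rpow_one, q0]
        _ ≤ (s0 : ℝ) ^ 3 * A := by
            apply mul_le_mul_of_nonneg_right _ ha0.le
            exact pow_le_pow_left₀ (by linarith) hs0 3
    exact_mod_cast h6
  have c3 : lam 2 ≤ s0 * s1 ^ 2 * (n + 2 + 2) := by
    rw [← e2]
    have h6 : ((ex lam 2 : ℕ) : ℝ) ≤ ((s0 * s1 ^ 2 * (n + 2 + 2) : ℕ) : ℝ) := by
      have h7 : ((s0 * s1 ^ 2 * (n + 2 + 2) : ℕ) : ℝ) = ((s0 : ℝ) * (s1 : ℝ) ^ 2) * A := by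
        rw [hA]
        push_cast
        ring
      rw [h7]
      calc (ex lam 2 : ℝ) ≤ A ^ (1 + t3 + ε / 4) := h3
        _ ≤ A ^ (t3 + 3 * (ε / 4) + 1) := Real.rpow_le_rpow_of_exponent_le ha1 (by linarith)
        _ = (p0 * p1 ^ 2) * A := by rw [Real.rpow_add ha0, Real.rpow_one, q1]
        _ ≤ ((s0 : ℝ) * (s1 : ℝ) ^ 2) * A := by
            apply mul_le_mul_of_nonneg_right _ ha0.le
            apply mul_le_mul hs0 _ (by positivity) (Nat.cast_nonneg _)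
            exact pow_le_pow_left₀ (by linarith) hs1 2
    exact_mod_cast h6
  have cb : ∑ i : Fin n, lam i.succ.succ.succ.succ + 4 * s0 * s1 * (n + 2 + 2) ≤ b := by
    rw [← hbel]
    have h6 : ((below 4 lam + 4 * s0 * s1 * (n + 2 + 2) : ℕ) : ℝ) ≤ (b : ℝ) := by
      have h7 : ((below 4 lam + 4 * s0 * s1 * (n + 2 + 2) : ℕ) : ℝ) =
          (below 4 lam : ℝ) + 4 * ((s0 : ℝ) * s1) * A := by
        rw [hA]
        push_cast
        ring
      rw [h7]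
      have h8 : (s0 : ℝ) * s1 ≤ 4 * (p0 * p1) := by
        calc (s0 : ℝ) * s1 ≤ (2 * p0) * (2 * p1) :=
              mul_le_mul hs0' hs1' (Nat.cast_nonneg _) (by linarith)
          _ = 4 * (p0 * p1) := by ring
      have h9 : p0 * p1 * A ≤ A ^ (1 + g + ε / 2) := by
        calc p0 * p1 * A = A ^ (t3 / 2 + t4 / 6 + ε / 2 + 1) := by
              rw [Real.rpow_add ha0, Real.rpow_one, q2]
          _ ≤ _ := Real.rpow_le_rpow_of_exponent_le ha1 (by linarith)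
      have h10 : (below 4 lam : ℝ) ≤ A ^ (1 + g + ε / 2) :=
        h5.trans (Real.rpow_le_rpow_of_exponent_le ha1 (by linarith))
      have h11 : A ^ (1 + g + ε) = A ^ (1 + g + ε / 2) * A ^ (ε / 2) := by
        rw [← Real.rpow_add ha0]
        congr 1
        ring
      have h12 : 0 < A ^ (1 + g + ε / 2) := Real.rpow_pos_of_pos ha0 _
      have h13 : 4 * ((s0 : ℝ) * s1) * A ≤ 16 * A ^ (1 + g + ε / 2) := by
        calc 4 * ((s0 : ℝ) * s1) * A ≤ 4 * (4 * (p0 * p1)) * A := by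
              apply mul_le_mul_of_nonneg_right _ ha0.le
              linarith
          _ = 16 * (p0 * p1 * A) := by ring
          _ ≤ _ := by linarith
      calc (below 4 lam : ℝ) + 4 * ((s0 : ℝ) * s1) * A ≤ 17 * A ^ (1 + g + ε / 2) := by linarith
        _ ≤ A ^ (1 + g + ε / 2) * A ^ (ε / 2) := by
            rw [mul_comm]
            exact mul_le_mul_of_nonneg_left h17 h12.le
        _ = A ^ (1 + g + ε) := h11.symm
        _ ≤ b := hb
    exact_mod_cast h6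
  exact w_two hW lam (by omega) hlam hsum s0 s1 hs01 h01 c4 c3 cb

/-- **T8, first form**: `b ≥ a ^ (47 / 36 + ε)`. -/
theorem final8 (hW : WPlus) (f2 : F8 (1 / 2) 2) (f3 : F8 (1 / 3) 3) (f4 : F8 (1 / 4) 4)
    (ε : ℝ) (hε : 0 < ε) : ∀ᶠ a : ℕ in atTop, ∀ b : ℕ, (a : ℝ) ^ (47 / 36 + ε) ≤ b →
    ∀ lam : Fin a → ℕ, Antitone lam → ∑ i, lam i = a * b →
      plethMult a b a lam ≤ plethMult b a a lam := by
  filter_upwards [w_real hW ε hε, f2 (ε / 4) (by positivity), f3 (ε / 4) (by positivity),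
    f4 (ε / 4) (by positivity), eventually_ge_atTop 1] with a hw h2 h3 h4 ha b hb lam hlam hsum
  have ha1 : (1 : ℝ) ≤ a := by exact_mod_cast ha
  have hb1 : (a : ℝ) ^ (1 + ε / 4) ≤ b :=
    (Real.rpow_le_rpow_of_exponent_le ha1 (by linarith)).trans hb
  by_cases d2 : (a : ℝ) ^ (1 + 1 / 2 + ε / 4) ≤ below 2 lam
  · exact h2 b hb1 lam hlam hsum d2
  by_cases d3 : (a : ℝ) ^ (1 + 1 / 3 + ε / 4) ≤ below 3 lam
  · exact h3 b hb1 lam hlam hsum d3
  by_cases d4 : (a : ℝ) ^ (1 + 1 / 4 + ε / 4) ≤ below 4 lam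
  · exact h4 b hb1 lam hlam hsum d4
  push Not at d2 d3 d4
  have e2 : (ex lam 2 : ℝ) ≤ below 2 lam := by exact_mod_cast ex_le_below lam 2
  have e3 : (ex lam 3 : ℝ) ≤ below 3 lam := by exact_mod_cast ex_le_below lam 3
  refine hw (1 / 2) (1 / 3) (11 / 36) b lam (by norm_num) (by norm_num) (by norm_num) ?_ hlam
    hsum (e2.trans d2.le) (e3.trans d3.le) (d4.le.trans ?_)
  · rwa [show (1 + 11 / 36 + ε : ℝ) = 47 / 36 + ε by ring]
  · exact Real.rpow_le_rpow_of_exponent_le ha1 (by linarith)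

end Vale.Agent.P181.T8
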