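import Vale.Agent.P181.H539.LB6

set_option autoImplicit false
set_option linter.all false

/-! # P181, T8: LB6 for small degree and short class

LB6 with `a ^ ε ≤ k` instead of `a ^ (1/2 + ε) ≤ k`, when the length class `l` satisfies
`l * a ^ ε ≤ k ^ 2` (adapted from H411, H463, H921, H539). -/

namespace Vale.Agent.P181.T8

open Vale.Agent.P181.T4

/-- The hypotheses of the lower bounds: `b` letters of degree `k ≥ a ^ ε`, a partition of `k * b`
with at most `n ≤ a` rows whose first row is at most `a ^ (-ε)` times its size. -/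
def Hyp2 (ε : ℝ) (a k b n : ℕ) (lam : Fin n → ℕ) : Prop :=
  n ≤ a ∧ (a : ℝ) ^ ε ≤ k ∧ k ≤ a ∧ (a : ℝ) ^ (1 + ε) ≤ b ∧ b ≤ a ^ 2 ∧
  Antitone lam ∧ ∑ i, lam i = k * b ∧ (ex lam 0 : ℝ) ≤ (a : ℝ) ^ (-ε) * ((k : ℝ) * b)

end Vale.Agent.P181.T8

section
namespace Vale.Agent.P181.H411

open Vale.Agent.P181.T6 Vale.Agent.P181.T4 Vale.Agent.P181.H162

/-- The deterministic core of [LE]. -/
theorem le_core2 (a k b n m l u : ℕ) (f : ℕ → ℕ) (T Lg : ℝ) (hmE : Even m) (hm2 : 2 ≤ m)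
    (hLg : 1 ≤ Lg) (hT : 10 ^ 8 * ((m : ℝ) * Lg ^ 5) ≤ T) (hk1 : T ^ 4 ≤ k)
    (hk2 : (a : ℝ) * T ^ 4 ≤ (k : ℝ) ^ 2) (hka : k ≤ a) (hbA : (a : ℝ) * T ^ 5 ≤ b)
    (hl1 : T ^ 4 ≤ l) (hln : l ≤ n) (hna : l ≤ a)
    (hn1 : (k : ℝ) * b ≤ Lg * (l * f (l - 1))) (hoff : 4 * f (4 * l - 1) ≤ f (l - 1))
    (htop : ∀ R ≤ l, ∑ r ∈ Finset.range R, f r + (l - R) * f (l - 1) ≤ k * b)
    (hu : 1 ≤ u) (huT : (u : ℝ) ≤ T) (hub : b ≤ 4 * u ^ m) :
    ∃ Y R x h G P La wm Nl : ℕ, Par6 k b n f m u Y R l x h G P La wm Nl ∧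
      (k : ℝ) * R ≤ T ^ 3 * (k + l) ∧ (b : ℝ) ≤ 2 * Lg * Nl ∧
      100 * ((FC k b m u Y x G P * (4 * l) : ℕ) : ℝ) * Lg ^ 3 ≤ (Nl : ℝ) * min (k : ℝ) (l : ℝ) := by
  have H : Bd T Lg k l a b m (f (l - 1)) (min (k : ℝ) (l : ℝ)) :=
    ⟨hLg, by exact_mod_cast hm2, hT, hk1, hk2, by exact_mod_cast hka,
      by exact_mod_cast hna, hbA, hl1, hn1, rfl⟩
  have hLg0 := H.Lg0
  have hT0 := H.T0
  have hT1 := H.T1
  have hK0 := H.K0
  have hL0 := H.L0
  have hB0 := H.B0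
  have hA0 := H.A0
  -- Y
  obtain ⟨Y, hYdef⟩ : ∃ Y : ℕ, Y = ⌈T * (1 + (l : ℝ) / k)⌉₊ := ⟨_, rfl⟩
  have hLK : 0 ≤ (l : ℝ) / k := by positivity
  have hz : T ≤ T * (1 + (l : ℝ) / k) := le_mul_of_one_le_right hT0.le (by linarith only [hLK])
  have hY1 : T * (1 + (l : ℝ) / k) ≤ Y := by rw [hYdef]; exact Nat.le_ceil _
  have hY2 : (Y : ℝ) ≤ 2 * (T * (1 + (l : ℝ) / k)) := by
    have h1 := (Nat.ceil_lt_add_one (show 0 ≤ T * (1 + (l : ℝ) / k) by
      linarith only [hz, hT0])).le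
    rw [← hYdef] at h1
    linarith only [h1, hz, hT1]
  have hKY1 : T * ((k : ℝ) + l) ≤ k * Y := by
    have h1 : T * ((k : ℝ) + l) = k * (T * (1 + (l : ℝ) / k)) := by field_simp
    rw [h1]
    exact mul_le_mul_of_nonneg_left hY1 hK0.le
  have hKY2 : (k : ℝ) * Y ≤ 2 * (T * ((k : ℝ) + l)) := by
    have h1 : 2 * (T * ((k : ℝ) + l)) = k * (2 * (T * (1 + (l : ℝ) / k))) := by field_simp
    rw [h1]
    exact mul_le_mul_of_nonneg_left hY2 hK0.le
  have hYT : T ≤ Y := hz.trans hY1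
  have hYpos : 0 < Y := by
    have : (0 : ℝ) < Y := by linarith only [hYT, hT0]
    exact_mod_cast this
  -- R
  obtain ⟨R, hRdef⟩ : ∃ R : ℕ, R = 4 * m * u * Y := ⟨_, rfl⟩
  have hRr : (R : ℝ) = 4 * m * u * Y := by
    rw [hRdef]
    push_cast
    ring
  have hU0 : (0 : ℝ) ≤ u := Nat.cast_nonneg u
  have hKR : (k : ℝ) * R ≤ T ^ 3 * (k + l) := H.KR hU0 huT hKY2 (Nat.cast_nonneg Y) hRr
  have hRL := H.RL hKR
  have hRK := H.RK hKR
  have hRn : 32 * R ≤ l := by exact_mod_cast hRL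
  have hRKn : 256 * R ≤ k := by exact_mod_cast hRK
  have hl8 : (2 : ℝ) * 10 ^ 8 ≤ l := H.L8
  have hk8 : (2 : ℝ) * 10 ^ 8 ≤ k := H.K8
  have hl8n : 2 * 10 ^ 8 ≤ l := by exact_mod_cast hl8
  have hk8n : 2 * 10 ^ 8 ≤ k := by exact_mod_cast hk8
  -- x
  obtain ⟨x, hxdef⟩ : ∃ x : ℕ, x = ⌈T⌉₊ := ⟨_, rfl⟩
  have hx1 : T ≤ x := by rw [hxdef]; exact Nat.le_ceil _
  have hx2 : (x : ℝ) ≤ 2 * T := by
    have h1 := (Nat.ceil_lt_add_one hT0.le).le
    rw [← hxdef] at h1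
    linarith only [h1, hT1]
  have hxpos : 0 < x := by
    have : (0 : ℝ) < x := by linarith only [hx1, hT0]
    exact_mod_cast this
  have hx0 : (0 : ℝ) ≤ x := Nat.cast_nonneg x
  -- h
  obtain ⟨h, hhdef⟩ : ∃ h : ℕ, h = l / 4 := ⟨_, rfl⟩
  have hh5 : l ≤ 5 * h := by omega
  have hhR : (l : ℝ) ≤ 5 * h := by exact_mod_cast hh5
  have hhpos : 0 < h := by omega
  -- G
  obtain ⟨G, hGdef⟩ : ∃ G : ℕ, G = (2 * R + b) / (x * h) + 1 := ⟨_, rfl⟩
  have hG1 : 2 * R + b < G * (x * h) := by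
    rw [hGdef]
    exact lt_div_add_one_mul _ _ (Nat.mul_pos hxpos hhpos)
  have hG2 : ((G : ℝ) - 1) * (x * h) ≤ 2 * R + b := by
    have h1 := Nat.div_mul_le_self (2 * R + b) (x * h)
    have h2 : (((2 * R + b) / (x * h) : ℕ) : ℝ) = (G : ℝ) - 1 := by
      rw [hGdef]
      push_cast
      ring
    rw [← h2]
    exact_mod_cast h1
  have hG3 : (1 : ℝ) ≤ G := by
    have : 1 ≤ G := by rw [hGdef]; exact Nat.le_add_left 1 _
    exact_mod_cast this
  have hGT := H.guards hKR hx1 hhR hG2 hG3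
  -- q
  obtain ⟨q, hqdef⟩ : ∃ q : ℕ, q = (b / 4 + 1) / Y := ⟨_, rfl⟩
  have hb4 : 4 ≤ b := by
    have h1 : (4 : ℝ) ≤ b := by
      have h2 := H.L1T
      have h3 := H.L8
      have h4 : 0 ≤ ((l : ℝ) - 1) * T := mul_nonneg (by linarith only [h3]) hT0.le
      linarith only [h2, h4, hT1]
    exact_mod_cast h1
  have hqY : (q : ℝ) * Y ≤ b := by
    have h1 : q * Y ≤ b / 4 + 1 := by
      rw [hqdef]
      exact Nat.div_mul_le_self _ _
    have h2 : q * Y ≤ b := by omega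
    exact_mod_cast h2
  have hq0 : (0 : ℝ) ≤ q := Nat.cast_nonneg q
  -- TD
  obtain ⟨TDn, hTDn⟩ : ∃ t : ℕ, t = TD k b m u Y := ⟨_, rfl⟩
  have hTDr : ((TDn : ℕ) : ℝ) = 4 * m * (q + u) + 8 * m * k := by
    rw [hTDn, hqdef]
    unfold TD TT
    push_cast
    ring
  have hTDL : ((TDn * (4 * l) : ℕ) : ℝ) = 4 * l * (4 * m * (q + u) + 8 * m * k) := by
    push_cast
    rw [hTDr]
    ring
  have hTests := H.tests (U := u) (Y := Y) (q := q) hU0 huT hKY1 hYT hq0 hqY hTDL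
  -- Nl
  obtain ⟨Nl, hNdef⟩ : ∃ N : ℕ, N = ⌈(b : ℝ) / (2 * Lg)⌉₊ := ⟨_, rfl⟩
  have hN1 : (b : ℝ) ≤ 2 * Lg * Nl := by
    have h1 : (b : ℝ) / (2 * Lg) ≤ Nl := by rw [hNdef]; exact Nat.le_ceil _
    rw [div_le_iff₀ (by positivity)] at h1
    linarith only [h1]
  have hN2 : 2 * Lg * Nl ≤ b + 2 * Lg := by
    have h1 := (Nat.ceil_lt_add_one (show 0 ≤ (b : ℝ) / (2 * Lg) by positivity)).le
    rw [← hNdef] at h1
    have h2 := mul_le_mul_of_nonneg_left h1 (show 0 ≤ 2 * Lg by positivity)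
    have h3 : 2 * Lg * ((b : ℝ) / (2 * Lg) + 1) = b + 2 * Lg := by field_simp
    linarith only [h2, h3]
  have hNcl := H.ncl hN1
  have hNcln : 16 * l + 3 ≤ Nl := by exact_mod_cast hNcl
  have hN0 : (0 : ℝ) ≤ Nl := Nat.cast_nonneg Nl
  -- La
  obtain ⟨D4, hD4⟩ : ∃ d : ℕ, d = (Nl - 3) / 4 := ⟨_, rfl⟩
  have hD5 : Nl ≤ 5 * D4 := by omega
  have hD5r : (Nl : ℝ) ≤ 5 * D4 := by exact_mod_cast hD5
  obtain ⟨La, hLadef⟩ : ∃ z : ℕ, z = TDn * (4 * l) / D4 + 1 := ⟨_, rfl⟩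
  have hLa1 : (1 : ℝ) ≤ La := by
    have : 1 ≤ La := by rw [hLadef]; exact Nat.le_add_left 1 _
    exact_mod_cast this
  have hLa2 : ((La : ℝ) - 1) * D4 ≤ ((TDn * (4 * l) : ℕ) : ℝ) := by
    have h1 := Nat.div_mul_le_self (TDn * (4 * l)) D4
    have h2 : ((TDn * (4 * l) / D4 : ℕ) : ℝ) = (La : ℝ) - 1 := by
      rw [hLadef]
      push_cast
      ring
    rw [← h2]
    exact_mod_cast h1
  have hLoad := H.load hTests hN1 hD5r hLa2 hLa1
  have hLaK := H.La_le hLoad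
  -- W, P
  obtain ⟨W, hWdef⟩ : ∃ W : ℕ, W = 2 * R * k + b * (La + 4 * x + 2) + 4 * l * (2 * k + 4 * x) :=
    ⟨_, rfl⟩
  have hWr : (W : ℝ) = 2 * R * k + b * (La + 4 * x + 2) + 4 * l * (2 * k + 4 * x) := by
    rw [hWdef]
    push_cast
    ring
  have hPad := H.pad (Nat.cast_nonneg R) hKR hx2 hx0 hLoad hWr
  obtain ⟨P, hPdef⟩ : ∃ P : ℕ, P = W / (l - R) + 1 := ⟨_, rfl⟩
  have hlR : 0 < l - R := by omega
  have hP1 : W < P * (l - R) := by
    rw [hPdef]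
    exact lt_div_add_one_mul _ _ hlR
  have hP2 : ((P : ℝ) - 1) * (l - R) ≤ W := by
    have h1 := Nat.div_mul_le_self W (l - R)
    have h2 : ((W / (l - R) : ℕ) : ℝ) = (P : ℝ) - 1 := by
      rw [hPdef]
      push_cast
      ring
    have h3 : ((l - R : ℕ) : ℝ) = (l : ℝ) - R := by
      rw [Nat.cast_sub (by omega)]
    rw [← h2, ← h3]
    exact_mod_cast h1
  have hP3 : (1 : ℝ) ≤ P := by
    have : 1 ≤ P := by rw [hPdef]; exact Nat.le_add_left 1 _
    exact_mod_cast this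
  have hPadL := H.padL hRL hPad hP2 hP3
  have hGC := H.guardCells hx2 hx0 hGT
  -- cells
  have hCr : ((FC k b m u Y x G P * (4 * l) : ℕ) : ℝ) =
      ((TDn * (4 * l) : ℕ) : ℝ) + 8 * (x : ℝ) ^ 2 * (G * l) + 4 * (P * l) := by
    unfold FC
    rw [← hTDn]
    push_cast
    ring
  have hCells := H.cells hTests hGC hPadL hCr
  have hNums := H.nums hCells hN1
  have hC0 : (0 : ℝ) ≤ ((FC k b m u Y x G P * (4 * l) : ℕ) : ℝ) := Nat.cast_nonneg _
  have hHC := H.hcells hC0 hNums hN0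
  have hWin := H.window (F := (FC k b m u Y x G P : ℕ)) hCells (by push_cast; ring)
  have hRows := H.rows hU0 huT hKY1 hq0 hqY hGT
  have hTop := H.top hKR hRL (Nat.cast_nonneg _) hN2
  refine ⟨Y, R, x, h, G, P, La, G + 1, Nl, ?_, hKR, hN1, hNums⟩
  refine
    { hm := hmE
      hm2 := hm2
      hu := hu
      hY := hYpos
      hR := hRdef
      hb := hub
      hRl := by omega
      hl := by omega
      hln := hln
      hx := hxpos
      hh := hhdef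
      hoff := hoff
      hk := by omega
      hRk := by omega
      hK := ?_
      hxk := ?_
      hrow := ?_
      htop := ?_
      hcl := hNcln
      hLa := ?_
      hG := ?_
      hGw := le_refl _
      hpr := ?_
      hcells := ?_
      hP := ?_
      hroom := ?_
      hwin := ?_ }
  · have h1 : (16 : ℝ) * (La + m + 1) ≤ k := by
      have h2 := H.cM
      have h3 := H.Ts
      have h4 := H.k1
      have h5 := H.M0
      linarith only [hLaK, h2, h3, h4, h5, hk8]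
    exact_mod_cast h1
  · have h1 : (32 : ℝ) * x ≤ k := by
      have h2 := H.P2
      have h3 := H.P3
      have h4 := H.P4
      have h5 := H.k1
      linarith only [hx2, h2, h3, h4, h5, hT0]
    exact_mod_cast h1
  · have h1 : (k : ℝ) * (G + 1 + 3) + q + u ≤ f (l - 1) := by
      have : (k : ℝ) * (G + 1 + 3) = k * (G + 4) := by ring
      rw [this]
      exact hRows
    rw [← hqdef]
    exact_mod_cast h1
  · have h1 : 2 * k * R + k * Nl ≤ (l - R) * f (l - 1) := by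
      have h3 : ((l - R : ℕ) : ℝ) = (l : ℝ) - R := by
        rw [Nat.cast_sub (by omega)]
      rw [← h3] at hTop
      exact_mod_cast hTop
    have h2 := htop R (by omega)
    omega
  · rw [← hTDn, ← hD4, hLadef]
  · rw [mul_assoc]
    exact hG1.le
  · have h1 : 2 * (x : ℝ) ^ 2 + R + 1 ≤ k := by
      have h2 := H.P2
      have h3 := H.P3
      have h4 := H.P4
      have h5 := H.k1
      have h6 := mul_le_mul hx2 hx2 hx0 (by linarith only [hT0])
      have h7 : (x : ℝ) ^ 2 = x * x := sq _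
      have h8 : 2 * T * (2 * T) = 4 * T ^ 2 := by ring
      linarith only [h2, h3, h4, h5, h6, h7, h8, hT0, hRK, hk8]
    exact_mod_cast h1
  · exact_mod_cast hHC
  · rw [hWdef] at hP1
    omega
  · rw [hWdef] at hP1
    omega
  · exact_mod_cast hWin

end Vale.Agent.P181.H411
end

section
namespace Vale.Agent.P181.T8

open Finset Filter
open Vale.Agent.P181.T6 Vale.Agent.P181.T4
open Vale.Agent.P181.H463 (exists_class four_mul_le sum_ex ex_of_ge)

/-- The choice of the length class. -/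
theorem choose_l2 (ε : ℝ) (hε : 0 < ε) (hε' : ε ≤ 1 / 2) : ∀ᶠ a : ℕ in atTop,
    ∀ (k b n : ℕ) (lam : Fin n → ℕ), Hyp2 ε a k b n lam → ∃ l, 1 ≤ l ∧ l ≤ n ∧
      ((k : ℝ) * b) ≤ (1 + Real.log a) * (l * ex lam (l - 1)) ∧
      (a : ℝ) ^ ε ≤ (1 + Real.log a) * l ∧ 4 * ex lam (4 * l - 1) ≤ ex lam (l - 1) ∧
      ∀ R ≤ l, ∑ r ∈ range R, ex lam r + (l - R) * ex lam (l - 1) ≤ k * b := by
  filter_upwards [eventually_ge_atTop 1] with a ha k b n lam hyp
  obtain ⟨hna, hka, hka', hba, hba', hanti, hsum, h0⟩ := hyp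
  have ha' : (1 : ℝ) ≤ a := by exact_mod_cast ha
  have hapos : (0 : ℝ) < a := by linarith
  have hkpos : (0 : ℝ) < k := lt_of_lt_of_le (Real.rpow_pos_of_pos hapos _) hka
  have hbpos : (0 : ℝ) < b := lt_of_lt_of_le (Real.rpow_pos_of_pos hapos _) hba
  have hkb : (0 : ℝ) < (k : ℝ) * b := mul_pos hkpos hbpos
  have hn : 0 < n := by
    rcases Nat.eq_zero_or_pos n with h | h
    · subst h
      rw [Fin.sum_univ_zero] at hsum
      rw [← Nat.cast_mul, ← hsum] at hkb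
      simp at hkb
    · exact h
  obtain ⟨i, hmax, hi⟩ := exists_class hn lam
  have hex : ex lam ((i : ℕ) + 1 - 1) = lam i := by
    rw [Nat.add_sub_cancel]
    exact ex_of_lt lam i.2
  have hlog : Real.log n ≤ Real.log a :=
    Real.log_le_log (by exact_mod_cast hn) (by exact_mod_cast hna)
  have hL : (0 : ℝ) ≤ 1 + Real.log a := by
    have := Real.log_nonneg ha'
    linarith
  have h1 : ((k : ℝ) * b) ≤ (1 + Real.log a) * ((((i : ℕ) + 1 : ℕ) : ℝ) * lam i) := by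
    rw [hsum] at hi
    push_cast at hi ⊢
    calc (k : ℝ) * b ≤ (((i : ℕ) : ℝ) + 1) * lam i * (1 + Real.log n) := hi
      _ ≤ (((i : ℕ) : ℝ) + 1) * lam i * (1 + Real.log a) := by gcongr
      _ = _ := by ring
  refine ⟨(i : ℕ) + 1, Nat.succ_pos _, i.2, ?_, ?_, ?_, ?_⟩
  · rw [hex]
    exact h1
  · -- the length
    have h2 : (lam i : ℝ) ≤ (a : ℝ) ^ (-ε) * ((k : ℝ) * b) := by
      refine le_trans ?_ h0
      rw [ex_of_lt lam hn]
      exact_mod_cast hanti (show (⟨0, hn⟩ : Fin n) ≤ i from Nat.zero_le _)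
    have h3 : ((k : ℝ) * b) ≤ ((1 + Real.log a) * (((i : ℕ) + 1 : ℕ) : ℝ)) *
        ((a : ℝ) ^ (-ε) * ((k : ℝ) * b)) := by
      refine le_trans h1 ?_
      rw [← mul_assoc]
      apply mul_le_mul_of_nonneg_left h2
      positivity
    have h4 : (1 : ℝ) ≤ ((1 + Real.log a) * (((i : ℕ) + 1 : ℕ) : ℝ)) * (a : ℝ) ^ (-ε) := by
      have h5 : 1 * ((k : ℝ) * b) ≤
          (((1 + Real.log a) * (((i : ℕ) + 1 : ℕ) : ℝ)) * (a : ℝ) ^ (-ε)) * ((k : ℝ) * b) := by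
        rw [one_mul]
        refine le_trans h3 (le_of_eq ?_)
        ring
      exact le_of_mul_le_mul_right h5 hkb
    have h6 : (a : ℝ) ^ (-ε) * (a : ℝ) ^ ε = 1 := by
      rw [← Real.rpow_add hapos]
      simp
    have h7 := mul_le_mul_of_nonneg_right h4 (Real.rpow_nonneg hapos.le ε)
    rw [one_mul, mul_assoc, h6, mul_one] at h7
    exact h7
  · rw [hex]
    by_cases h : 4 * ((i : ℕ) + 1) - 1 < n
    · rw [ex_of_lt lam h]
      exact four_mul_le i hmax ⟨_, h⟩ (by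
        show 4 * ((i : ℕ) + 1) ≤ 4 * ((i : ℕ) + 1) - 1 + 1
        omega)
    · rw [ex_of_ge lam (not_lt.mp h)]
      exact Nat.zero_le _
  · intro R hR
    rw [hex]
    have h2 : ((i : ℕ) + 1 - R) * lam i ≤ ∑ r ∈ Ico R ((i : ℕ) + 1), ex lam r := by
      rw [← Nat.card_Ico, ← smul_eq_mul]
      apply card_nsmul_le_sum
      intro r hr
      rw [mem_Ico] at hr
      have hr' : r < n := lt_of_lt_of_le hr.2 i.2
      rw [ex_of_lt lam hr']
      exact hanti (show (⟨r, hr'⟩ : Fin n) ≤ i from Nat.lt_succ_iff.mp hr.2)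
    calc ∑ r ∈ range R, ex lam r + ((i : ℕ) + 1 - R) * lam i
        ≤ ∑ r ∈ range R, ex lam r + ∑ r ∈ Ico R ((i : ℕ) + 1), ex lam r :=
          Nat.add_le_add_left h2 _
      _ = ∑ r ∈ range ((i : ℕ) + 1), ex lam r := by
          rw [range_eq_Ico, range_eq_Ico, sum_Ico_consecutive _ (Nat.zero_le R) hR]
      _ ≤ ∑ r ∈ range n, ex lam r :=
          sum_le_sum_of_subset (range_subset_range.mpr i.2)
      _ = k * b := by rw [sum_ex, hsum]

end Vale.Agent.P181.T8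
end

section
namespace Vale.Agent.P181.H921

open Filter Real Vale.Agent.P181.T4 Vale.Agent.P181.H463 Vale.Agent.P181.T6

lemma top_rows2 {a k l N R : ℕ} {y : ℝ} (ha : 3 ≤ a) (hlog : 2 ≤ Real.log a)
    (hy : 3600 * Real.log a ^ 4 ≤ y) (hk0 : 0 < k)
    (hk2 : (l : ℝ) * y ^ 4 ≤ (k : ℝ) ^ 2) (hl1 : 1 ≤ l)
    (hN : (a : ℝ) * y ^ 2 ≤ 3 * Real.log a * N)
    (hkR : (k : ℝ) * R ≤ y * (k + l)) :
    400 * Real.log a ^ 2 * (a * R) ≤ N * ((min k l : ℕ) : ℝ) := by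
  have ha' : (3 : ℝ) ≤ a := by exact_mod_cast ha
  have ha0 : (0 : ℝ) < a := by linarith
  have hlog0 : 0 < Real.log a := by linarith
  have hkR0 : (0 : ℝ) < k := by exact_mod_cast hk0
  have hlR : (1 : ℝ) ≤ l := by exact_mod_cast hl1
  have hlog4 : 16 ≤ Real.log a ^ 4 := by
    calc (16 : ℝ) = 2 ^ 4 := by norm_num
      _ ≤ Real.log a ^ 4 := pow_le_pow_left₀ (by norm_num) hlog 4
  have hy0 : 1 ≤ y := by linarith
  have hlog3 : 2400 * Real.log a ^ 3 ≤ y := by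
    have h1 : Real.log a ^ 3 * 1 ≤ Real.log a ^ 3 * Real.log a := by
      gcongr
      linarith
    have h2 : Real.log a ^ 3 * Real.log a = Real.log a ^ 4 := by ring
    linarith
  -- `1200 log^2 a * a * y ≤ N`-type inequality
  have hN2 : 800 * Real.log a ^ 2 * (a * y) ≤ N := by
    have h1 : 3 * Real.log a * (800 * Real.log a ^ 2 * (a * y)) ≤ 3 * Real.log a * N := by
      calc 3 * Real.log a * (800 * Real.log a ^ 2 * (a * y))
          = (2400 * Real.log a ^ 3) * (a * y) := by ring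
        _ ≤ y * (a * y) := by gcongr
        _ = (a : ℝ) * y ^ 2 := by ring
        _ ≤ _ := hN
    exact le_of_mul_le_mul_left h1 (by positivity)
  have key : (k : ℝ) * (400 * Real.log a ^ 2 * (a * R)) ≤ k * (N * ((min k l : ℕ) : ℝ)) := by
    have h0 : (k : ℝ) * (400 * Real.log a ^ 2 * (a * R)) ≤
        400 * Real.log a ^ 2 * (a * (y * (k + l))) := by
      calc (k : ℝ) * (400 * Real.log a ^ 2 * (a * R))
          = 400 * Real.log a ^ 2 * (a * (k * R)) := by ring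
        _ ≤ _ := by gcongr
    refine h0.trans ?_
    rcases le_total l k with h | h
    · have hlk : (l : ℝ) ≤ k := by exact_mod_cast h
      rw [min_eq_right h]
      calc 400 * Real.log a ^ 2 * (a * (y * (k + l)))
          ≤ 400 * Real.log a ^ 2 * (a * (y * (k + k))) := by gcongr
        _ = k * ((800 * Real.log a ^ 2 * (a * y)) * 1) := by ring
        _ ≤ k * (N * l) := by gcongr
    · have hlk : (k : ℝ) ≤ l := by exact_mod_cast h
      rw [min_eq_left h]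
      have hy4 : y * (2 * l) ≤ 2 * (k : ℝ) ^ 2 := by
        calc y * (2 * l) = 2 * (l * (y * 1)) := by ring
          _ ≤ 2 * (l * (y * y ^ 3)) := by
            gcongr
            exact one_le_pow₀ hy0
          _ = 2 * (l * y ^ 4) := by ring
          _ ≤ _ := by gcongr
      have hN3 : 800 * Real.log a ^ 2 * (a * 1) ≤ N := by
        refine le_trans ?_ hN2
        gcongr
      calc 400 * Real.log a ^ 2 * (a * (y * (k + l)))
          ≤ 400 * Real.log a ^ 2 * (a * (y * (l + l))) := by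
            gcongr
        _ = 400 * Real.log a ^ 2 * (a * (y * (2 * l))) := by ring
        _ ≤ 400 * Real.log a ^ 2 * (a * (2 * (k : ℝ) ^ 2)) := by gcongr
        _ = (800 * Real.log a ^ 2 * (a * 1)) * (k * k) := by ring
        _ ≤ N * (k * k) := by gcongr
        _ = k * (N * k) := by ring
  exact le_of_mul_le_mul_left key hkR0

/-- The inequality from the numbers. -/
lemma core6t2 {a k b n : ℕ} {lam : Fin n → ℕ} {y : ℝ} (ha : 3 ≤ a) (hna : n ≤ a)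
    (hlog : 2 ≤ Real.log a) (hy : 3600 * Real.log a ^ 4 ≤ y)
    (hka : k ≤ a) (hb2 : b ≤ a ^ 2) (hlam : Antitone lam) (hs : ∑ i, lam i = k * b)
    (hky : y ^ 2 ≤ k)
    {R N l cells : ℕ} {eta : Fin (n - R) → ℕ} (hk2 : (l : ℝ) * y ^ 4 ≤ (k : ℝ) ^ 2) (hl1 : 1 ≤ l) (hln : l ≤ n)
    (hly : y ^ 2 ≤ (1 + Real.log a) * l)
    (hmass : ((k : ℝ) * b) ≤ (1 + Real.log a) * (l * ex lam (l - 1))) (hRl : 8 * R ≤ l)
    (hkR : (k : ℝ) * R ≤ y * (k + l)) (hNb : N ≤ b) (hbN3 : (b : ℝ) ≤ 3 * Real.log a * N)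
    (hNy : (a : ℝ) * y ^ 2 ≤ 3 * Real.log a * N)
    (hc : 100 * (cells : ℝ) * Real.log a ^ 3 ≤ (N : ℝ) * (min k l : ℕ))
    (heta : Antitone eta)
    (hle : ∀ i, eta i ≤ low R lam i) (hsum : ∑ i, low R lam i ≤ ∑ i, eta i + cells) :
    ((ex lam 0 : ℝ) + 1) ^ (a * R) * (a : ℝ) ^ cells *
        (((∑ i, eta i) + N - 1).choose (N - 1) : ℝ) * (gt (n - R) a eta : ℝ) *
        Real.exp (2 * b) ≤ (gt (n - R) N eta : ℝ) := by
  set nu : ℕ := ex lam (l - 1) with hnudef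
  set mu : ℕ := min k l with hmudef
  have hlog0 : 0 < Real.log a := by linarith
  have hlog4 : 16 ≤ Real.log a ^ 4 := by
    calc (16 : ℝ) = 2 ^ 4 := by norm_num
      _ ≤ Real.log a ^ 4 := pow_le_pow_left₀ (by norm_num) hlog 4
  have hy0 : 0 < y := by linarith
  have hkpos : (0 : ℝ) < k := lt_of_lt_of_le (by positivity) hky
  have hk0 : 0 < k := by exact_mod_cast hkpos
  have hlR : (1 : ℝ) ≤ l := by exact_mod_cast hl1
  have hl375 := big_of hlog hy hly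
  have hk375 : 375 * Real.log a ^ 3 ≤ k := big_of (l := k) hlog hy (by
    refine hky.trans ?_
    calc (k : ℝ) = 1 * k := (one_mul _).symm
      _ ≤ (1 + Real.log a) * k := by gcongr; linarith)
  have hmu375 : 375 * Real.log a ^ 3 ≤ (mu : ℝ) := by
    rw [hmudef, Nat.cast_min]
    exact le_min hk375 hl375
  have hl5 : 5 ≤ l := by
    have h1 : 8 ≤ Real.log a ^ 3 := by
      calc (8 : ℝ) = 2 ^ 3 := by norm_num
        _ ≤ Real.log a ^ 3 := pow_le_pow_left₀ (by norm_num) hlog 3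
    have : (5 : ℝ) ≤ l := by linarith
    exact_mod_cast this
  have haN : 10 * a ≤ N := N_big hlog hy hNy
  have hN1 : 1 ≤ N := by omega
  have hN0 : (0 : ℝ) < N := by exact_mod_cast hN1
  have hNb' : (N : ℝ) ≤ b := by exact_mod_cast hNb
  have hkN : 2 * ((k : ℝ) * N) ≤ 3 * Real.log a * (l * nu) := by
    calc 2 * ((k : ℝ) * N) ≤ 2 * ((k : ℝ) * b) := by gcongr
      _ ≤ 2 * ((1 + Real.log a) * (l * nu)) := by gcongr
      _ = (2 * (1 + Real.log a)) * (l * nu) := by ring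
      _ ≤ (3 * Real.log a) * (l * nu) :=
        mul_le_mul_of_nonneg_right (by linarith) (by positivity)
  have hlnu : (0 : ℝ) < l * nu := by
    by_contra h
    push Not at h
    have h1 : 3 * Real.log a * (l * nu) ≤ 0 :=
      mul_nonpos_of_nonneg_of_nonpos (by positivity) h
    have h2 : (0 : ℝ) < 2 * ((k : ℝ) * N) := by positivity
    linarith
  have hmul : (mu : ℝ) ≤ l := by
    have : mu ≤ l := min_le_right _ _
    exact_mod_cast this
  have hcost : 16 * cells < 3 * (l * nu) :=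
    cells_small hlog (min_le_left _ _) hc hkN hlnu
  have hrows := rows_long hlam hle hsum heta hRl hln hnudef hcost
  have hgrow := Vale.Agent.P181.H539.gt_growth_rows (n := n - R) (a := a) (N := N) (l := l / 2)
    (n0 := (nu + 1) / 2) (by omega) (by omega) (by omega) heta (by omega)
    (fun i hi => by
      have := hrows i hi
      omega)
  have hgain := gain6 (a := a) (N := N) (l := l) (n0 := (nu + 1) / 2) (mu := (mu : ℝ)) hl5 haN
    (by linarith) (Nat.cast_nonneg _) hmul (rate hlog (min_le_left _ _) hN0 hlR hkN)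
  have hm : ∑ i, eta i ≤ a * b :=
    (Finset.sum_le_sum fun i _ => hle i).trans ((sum_low_le (by omega) lam).trans
      (hs.le.trans (Nat.mul_le_mul_right _ hka)))
  have hL : (ex lam 0 : ℝ) + a ≤ (a : ℝ) ^ 4 := row0_le ha (by omega) hka hb2 hs
  have htop := top_rows2 (k := k) (l := l) (N := N) (R := R) (y := y) ha hlog hy hk0 hk2
    hl1 hNy hkR
  have hcst := cost_le (a := a) (b := b) (L := ex lam 0) (R := R) (N := N) (cells := cells)
    (m := ∑ i, eta i) (mu := (mu : ℝ)) ha hL hlog hN1 hNb hm hbN3 hc htop hmu375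
  have hG : (0 : ℝ) ≤ (gt (n - R) a eta : ℝ) := Nat.cast_nonneg _
  calc _ = (((ex lam 0 : ℝ) + 1) ^ (a * R) * (a : ℝ) ^ cells *
        (((∑ i, eta i) + N - 1).choose (N - 1) : ℝ) * Real.exp (2 * b)) *
        (gt (n - R) a eta : ℝ) := by ring
    _ ≤ (1 + (((nu + 1) / 2 : ℕ) : ℝ) / N) ^ (l / 2 * (N - a)) * (gt (n - R) a eta : ℝ) :=
        mul_le_mul_of_nonneg_right (hcst.trans hgain) hG
    _ = (gt (n - R) a eta : ℝ) * (1 + (((nu + 1) / 2 : ℕ) : ℝ) / N) ^ (l / 2 * (N - a)) :=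
        mul_comm _ _
    _ ≤ _ := hgrow

/-- The numbers, for one `a`. -/
lemma core6s2 {ε : ℝ} {a k b n : ℕ} {lam : Fin n → ℕ} (ha : 3 ≤ a)
    (hlog : 2 ≤ Real.log a) (hy : 3600 * Real.log a ^ 4 ≤ (a : ℝ) ^ (ε / 2))
    (hH : Vale.Agent.P181.T8.Hyp2 ε a k b n lam) {R N l cells : ℕ} {eta : Fin (n - R) → ℕ}
    (hlk : (l : ℝ) * (a : ℝ) ^ (2 * ε) ≤ (k : ℝ) ^ 2)
    (hNu : Nums ε a k b n lam R N l cells) (heta : Antitone eta)
    (hle : ∀ i, eta i ≤ low R lam i) (hsum : ∑ i, low R lam i ≤ ∑ i, eta i + cells) :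
    ((ex lam 0 : ℝ) + 1) ^ (a * R) * (a : ℝ) ^ cells *
        (((∑ i, eta i) + N - 1).choose (N - 1) : ℝ) * (gt (n - R) a eta : ℝ) *
        Real.exp (2 * b) ≤ (gt (n - R) N eta : ℝ) := by
  obtain ⟨hna, hk, hka, hb, hb2, hlam, hs, hx⟩ := hH
  obtain ⟨hl1, hln, hmass, hRl, hkR, hNb, hbN, hc⟩ := hNu
  set y : ℝ := (a : ℝ) ^ (ε / 2) with hydef
  have ha' : (3 : ℝ) ≤ a := by exact_mod_cast ha
  have ha0 : (0 : ℝ) < a := by linarith
  have hlog0 : 0 < Real.log a := by linarith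
  have hlog4 : 16 ≤ Real.log a ^ 4 := by
    calc (16 : ℝ) = 2 ^ 4 := by norm_num
      _ ≤ Real.log a ^ 4 := pow_le_pow_left₀ (by norm_num) hlog 4
  have hy0 : 0 < y := by linarith
  have hyy : (a : ℝ) ^ ε = y ^ 2 := by
    rw [hydef, ← Real.rpow_natCast, ← Real.rpow_mul ha0.le]
    congr 1
    push_cast
    ring
  have hb' : (a : ℝ) * y ^ 2 ≤ b := by
    rw [Real.rpow_add ha0, Real.rpow_one, hyy] at hb
    exact hb
  have hk2 : (l : ℝ) * y ^ 4 ≤ (k : ℝ) ^ 2 := by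
    have h1 : y ^ 4 = (a : ℝ) ^ (2 * ε) := by
      rw [hydef, ← Real.rpow_natCast, ← Real.rpow_mul ha0.le]
      congr 1
      push_cast
      ring
    rw [h1]
    exact hlk
  have hky : y ^ 2 ≤ k := by
    rw [← hyy]
    exact hk
  have hkpos : (0 : ℝ) < k := lt_of_lt_of_le (by positivity) hky
  have hbpos : (0 : ℝ) < b := lt_of_lt_of_le (by positivity) hb'
  have hnx : (ex lam (l - 1) : ℝ) ≤ (a : ℝ) ^ (-ε) * ((k : ℝ) * b) := by
    refine le_trans ?_ hx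
    have : ex lam (l - 1) ≤ ex lam 0 := ex_anti hlam (by omega)
    exact_mod_cast this
  have hbN3 : (b : ℝ) ≤ 3 * Real.log a * N := by
    calc (b : ℝ) ≤ 2 * (1 + Real.log a) * N := hbN
      _ ≤ 2 * ((3 / 2) * Real.log a) * N := by
        gcongr
        linarith
      _ = _ := by ring
  exact core6t2 ha hna hlog hy hka hb2 hlam hs hky hk2 hl1 hln
    (l_ge ha hlog hy0 hyy (by positivity) hmass hnx) hmass hRl hkR hNb hbN3
    (hb'.trans hbN3) hc heta hle hsum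


/-- the numerical inequality. -/
lemma num6_two (ε : ℝ) (hε : 0 < ε) : ∀ᶠ a : ℕ in atTop, ∀ (k b n : ℕ)
    (lam : Fin n → ℕ), Vale.Agent.P181.T8.Hyp2 ε a k b n lam →
    ∀ (R N l cells : ℕ) (eta : Fin (n - R) → ℕ), Nums ε a k b n lam R N l cells →
      (l : ℝ) * (a : ℝ) ^ (2 * ε) ≤ (k : ℝ) ^ 2 →
      Antitone eta → (∀ i, eta i ≤ low R lam i) → ∑ i, low R lam i ≤ ∑ i, eta i + cells →
      ((ex lam 0 : ℝ) + 1) ^ (a * R) * (a : ℝ) ^ cells *
          (((∑ i, eta i) + N - 1).choose (N - 1) : ℝ) * (gt (n - R) a eta : ℝ) *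
          Real.exp (2 * b) ≤ (gt (n - R) N eta : ℝ) := by
  have hlog : ∀ᶠ a : ℕ in atTop, 2 ≤ Real.log a :=
    (Real.tendsto_log_atTop.comp tendsto_natCast_atTop_atTop).eventually_ge_atTop 2
  filter_upwards [ev_log 60 (ε / 4) (by linarith), eventually_ge_atTop 3, hlog] with a h1 h2 h3
  intro k b n lam hH R N l cells eta hNu hlk heta hle hsum
  refine core6s2 h2 h3 ?_ hH hlk hNu heta hle hsum
  have ha0 : (0 : ℝ) ≤ a := Nat.cast_nonneg _
  have h4 : (a : ℝ) ^ (ε / 2) = ((a : ℝ) ^ (ε / 4)) ^ 2 := by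
    rw [← Real.rpow_natCast, ← Real.rpow_mul ha0]
    congr 1
    push_cast
    ring
  rw [h4]
  calc 3600 * Real.log a ^ 4 = (60 * Real.log a ^ 2) ^ 2 := by ring
    _ ≤ _ := by gcongr

end Vale.Agent.P181.H921
end

section
namespace Vale.Agent.P181.H411

open Vale.Agent.P181.T6 Vale.Agent.P181.T4 Vale.Agent.P181.H162 Filter

/-- **[LE]** the numbers exist. -/
theorem par6_two (ε : ℝ) (hε : 0 < ε) (hε' : ε ≤ 1 / 2) : ∀ᶠ a : ℕ in atTop, ∀ (k b n : ℕ)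
    (lam : Fin n → ℕ), T8.Hyp2 ε a k b n lam → ∃ l, 1 ≤ l ∧ l ≤ n ∧
      ((k : ℝ) * b) ≤ (1 + Real.log a) * (l * ex lam (l - 1)) ∧
      ((l : ℝ) * (a : ℝ) ^ (2 * ε) ≤ (k : ℝ) ^ 2 →
      ∃ m u Y R x h G P La wm Nl : ℕ, Par6 k b n (ex lam) m u Y R l x h G P La wm Nl ∧
        ∀ N, Nl ≤ N → N ≤ b → Nums ε a k b n lam R N l (FC k b m u Y x G P * (4 * l))) := by
  have hth : 0 < ε / 20 := by positivity
  obtain ⟨m0, hm0⟩ : ∃ m0 : ℕ, m0 = ⌈4 / (ε / 20)⌉₊ := ⟨_, rfl⟩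
  have hm01 : 4 / (ε / 20) ≤ m0 := by rw [hm0]; exact Nat.le_ceil _
  have hm0pos : 1 ≤ m0 := by
    have h1 : (0 : ℝ) < m0 := lt_of_lt_of_le (by positivity) hm01
    exact_mod_cast h1
  filter_upwards [ev_log5 (10 ^ 8 * ((2 * m0 : ℕ) : ℝ)) (ε / 20) (by positivity) hth,
    T8.choose_l2 ε hε hε'] with a ha1 ha2
  obtain ⟨ha3, hlogT⟩ := ha1
  intro k b n lam hyp
  obtain ⟨l, hl1, hln, hn1, hla, hoff, htop⟩ := ha2 k b n lam hyp
  obtain ⟨hna, hk, hka, hb, hb2, -, -, -⟩ := hyp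
  refine ⟨l, hl1, hln, hn1, fun hlk => ?_⟩
  have ha3' : (3 : ℝ) ≤ a := by exact_mod_cast ha3
  have ha1' : (1 : ℝ) ≤ a := by linarith
  have ha0 : (0 : ℝ) < a := by linarith
  have hlog : 0 ≤ Real.log a := Real.log_nonneg ha1'
  obtain ⟨Lg, hLg⟩ : ∃ z : ℝ, z = 1 + Real.log a := ⟨_, rfl⟩
  rw [← hLg] at hlogT hn1 hla
  have hLg1 : 1 ≤ Lg := by rw [hLg]; linarith
  obtain ⟨T, hT⟩ : ∃ T : ℝ, T = (a : ℝ) ^ (ε / 20) := ⟨_, rfl⟩
  rw [← hT] at hlogT
  have hTpow : ∀ j : ℕ, T ^ j = (a : ℝ) ^ (ε / 20 * j) := by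
    intro j
    rw [hT, ← Real.rpow_natCast, ← Real.rpow_mul ha0.le]
  have hm2 : (2 : ℝ) ≤ ((2 * m0 : ℕ) : ℝ) := by
    exact_mod_cast (show 2 ≤ 2 * m0 by omega)
  have hT1 : 10 ^ 8 * (((2 * m0 : ℕ) : ℝ) * Lg ^ 5) ≤ T := by
    have : 10 ^ 8 * (((2 * m0 : ℕ) : ℝ) * Lg ^ 5) = 10 ^ 8 * ((2 * m0 : ℕ) : ℝ) * Lg ^ 5 := by
      ring
    rw [this]
    exact hlogT
  have hLg5 : Lg ≤ Lg ^ 5 := by
    calc Lg = Lg ^ 1 := (pow_one _).symm
      _ ≤ Lg ^ 5 := pow_le_pow_right₀ hLg1 (by norm_num)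
  have hTL : 2 * 10 ^ 8 * Lg ≤ T := by
    have h1 : 2 * Lg ≤ ((2 * m0 : ℕ) : ℝ) * Lg ^ 5 := by
      apply mul_le_mul hm2 hLg5 (by linarith) (by linarith)
    linarith
  have hT8 : 2 * 10 ^ 8 ≤ T := by linarith
  -- u
  obtain ⟨u, hu⟩ : ∃ u : ℕ, u = ⌈(a : ℝ) ^ (ε / 40)⌉₊ := ⟨_, rfl⟩
  have hs : (a : ℝ) ^ (ε / 40) * (a : ℝ) ^ (ε / 40) = T := by
    rw [hT, ← Real.rpow_add ha0]
    congr 1
    ring
  have hs1 : 1 ≤ (a : ℝ) ^ (ε / 40) := Real.one_le_rpow ha1' (by positivity)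
  have hs2 : 2 ≤ (a : ℝ) ^ (ε / 40) := by
    by_contra hcon
    push Not at hcon
    have h1 := mul_le_mul hcon.le hcon.le (by linarith) (by norm_num)
    rw [hs] at h1
    linarith
  have hu1 : (a : ℝ) ^ (ε / 40) ≤ u := by rw [hu]; exact Nat.le_ceil _
  have hu2 : (u : ℝ) ≤ T := by
    have h1 := (Nat.ceil_lt_add_one (show 0 ≤ (a : ℝ) ^ (ε / 40) by linarith)).le
    rw [← hu] at h1
    rw [← hs]
    nlinarith
  have hupos : 1 ≤ u := by
    have : (0 : ℝ) < u := by linarith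
    exact_mod_cast this
  have hub : b ≤ 4 * u ^ (2 * m0) := by
    have h1 : (b : ℝ) ≤ 4 * (u : ℝ) ^ (2 * m0) := by
      have h2 : ((a : ℝ) ^ (ε / 40)) ^ (2 * m0) ≤ (u : ℝ) ^ (2 * m0) :=
        pow_le_pow_left₀ (by linarith) hu1 _
      have h3 : (a : ℝ) ^ (2 : ℝ) ≤ ((a : ℝ) ^ (ε / 40)) ^ (2 * m0) := by
        rw [← Real.rpow_natCast, ← Real.rpow_mul ha0.le]
        apply Real.rpow_le_rpow_of_exponent_le ha1'
        push_cast
        rw [div_le_iff₀ (by positivity)] at hm01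
        linarith
      have h4 : (b : ℝ) ≤ (a : ℝ) ^ (2 : ℝ) := by
        rw [show (2 : ℝ) = ((2 : ℕ) : ℝ) by norm_num, Real.rpow_natCast]
        exact_mod_cast hb2
      have h5 : 0 ≤ (u : ℝ) ^ (2 * m0) := by positivity
      linarith
    exact_mod_cast h1
  -- the powers
  have hk1 : T ^ 4 ≤ k := by
    refine le_trans ?_ hk
    rw [hTpow]
    apply Real.rpow_le_rpow_of_exponent_le ha1'
    push_cast
    linarith
  have hkpos : (0 : ℝ) ≤ k := Nat.cast_nonneg k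
  have hk2 : ((max k l : ℕ) : ℝ) * T ^ 4 ≤ (k : ℝ) ^ 2 := by
    rcases max_cases k l with ⟨h1, -⟩ | ⟨h1, -⟩
    · rw [h1]
      calc (k : ℝ) * T ^ 4 ≤ k * k := by gcongr
        _ = (k : ℝ) ^ 2 := by ring
    · rw [h1]
      refine le_trans ?_ hlk
      apply mul_le_mul_of_nonneg_left _ (Nat.cast_nonneg l)
      rw [hTpow]
      apply Real.rpow_le_rpow_of_exponent_le ha1'
      push_cast
      linarith
  have hbA : (a : ℝ) * T ^ 5 ≤ b := by
    refine le_trans ?_ hb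
    rw [hTpow]
    nth_rewrite 1 [← Real.rpow_one (a : ℝ)]
    rw [← Real.rpow_add ha0]
    apply Real.rpow_le_rpow_of_exponent_le ha1'
    push_cast
    linarith
  have hT0 : 0 < T := by linarith
  have hmax : max k l ≤ a := max_le hka (hln.trans hna)
  have hbA2 : ((max k l : ℕ) : ℝ) * T ^ 5 ≤ b := by
    refine le_trans ?_ hbA
    apply mul_le_mul_of_nonneg_right _ (by positivity)
    exact_mod_cast hmax
  have hlT : T ^ 4 ≤ l := by
    have h1 : T ^ 5 ≤ (a : ℝ) ^ ε := by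
      rw [hTpow]
      apply Real.rpow_le_rpow_of_exponent_le ha1'
      push_cast
      linarith
    have h2 : Lg * l ≤ T * l := by
      apply mul_le_mul_of_nonneg_right _ (Nat.cast_nonneg l)
      linarith
    have h3 : T * T ^ 4 ≤ T * l := by
      have : T * T ^ 4 = T ^ 5 := by ring
      rw [this]
      linarith
    exact le_of_mul_le_mul_left h3 hT0
  obtain ⟨Y, R, x, h, G, P, La, wm, Nl, hpar, hKR, hN1, hcells⟩ :=
    le_core2 (max k l) k b n (2 * m0) l u (ex lam) T Lg ⟨m0, by ring⟩ (by omega) hLg1 hT1 hk1 hk2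
      (le_max_left _ _) hbA2 hlT hln (le_max_right _ _) hn1 hoff htop hupos hu2 hub
  refine ⟨2 * m0, u, Y, R, x, h, G, P, La, wm, Nl, hpar, ?_⟩
  intro N hNN hNb
  have hNr : (Nl : ℝ) ≤ N := by exact_mod_cast hNN
  refine ⟨hl1, hln, by rw [← hLg]; exact hn1, hpar.hRl, ?_, hNb, ?_, ?_⟩
  · refine le_trans hKR ?_
    apply mul_le_mul_of_nonneg_right _ (by positivity)
    rw [hTpow]
    apply Real.rpow_le_rpow_of_exponent_le ha1'
    push_cast
    linarith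
  · rw [← hLg]
    refine le_trans hN1 ?_
    apply mul_le_mul_of_nonneg_left hNr
    linarith
  · rw [Nat.cast_min]
    have h1 : Real.log a ^ 3 ≤ Lg ^ 3 := by
      apply pow_le_pow_left₀ hlog
      rw [hLg]
      linarith
    have h2 : 0 ≤ 100 * ((FC k b (2 * m0) u Y x G P * (4 * l) : ℕ) : ℝ) := by positivity
    have h3 := mul_le_mul_of_nonneg_left h1 h2
    have h4 : (Nl : ℝ) * min (k : ℝ) (l : ℝ) ≤ N * min (k : ℝ) (l : ℝ) :=
      mul_le_mul_of_nonneg_right hNr (le_min (Nat.cast_nonneg k) (Nat.cast_nonneg l))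
    linarith

end Vale.Agent.P181.H411
end

section
namespace Vale.Agent.P181.T8

open Vale.Agent.P181.FR Vale.Agent.P181.H188W Vale.Agent.P181.T4 Vale.Agent.P181.H280
open Vale.Agent.P181.H463 Vale.Agent.P181.T6

/-- The bound for one partition. -/
theorem lb_one {ε : ℝ} {a k b n : ℕ} {lam : Fin n → ℕ} {R N l cells : ℕ}
    {eta : Fin (n - R) → ℕ} (ha : 1 ≤ a) (hyp : Hyp2 ε a k b n lam)
    (hnums : Nums ε a k b n lam R N l cells) (hdes : DesignFor k b n R N cells lam eta)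
    (hN : Antitone eta → (∀ i, eta i ≤ low R lam i) →
      ∑ i, low R lam i ≤ ∑ i, eta i + cells →
      ((ex lam 0 : ℝ) + 1) ^ (a * R) * (a : ℝ) ^ cells *
        (((∑ i, eta i) + N - 1).choose (N - 1) : ℝ) * (gt (n - R) a eta : ℝ) *
        Real.exp (2 * b) ≤ (gt (n - R) N eta : ℝ)) :
    ∃ P : ℕ, Family k b n lam P ∧ (gt n a lam : ℝ) * Real.exp (2 * b) ≤ P := by
  have hlam := hyp.2.2.2.2.2.1
  have hsum := hyp.2.2.2.2.2.2.1
  have hRn : R ≤ n := by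
    have h1 := hnums.2.1
    have h2 := hnums.2.2.2.1
    omega
  have hN1 : 1 ≤ N := by
    by_contra hcon
    have hN0 : N = 0 := by omega
    have h1 := hnums.2.2.2.2.2.2.1
    rw [hN0] at h1
    simp only [Nat.cast_zero, mul_zero] at h1
    have h2 := hyp.2.2.2.1
    have ha' : (0 : ℝ) < a := by exact_mod_cast ha
    have h3 : (0 : ℝ) < (a : ℝ) ^ (1 + ε) := Real.rpow_pos_of_pos ha' _
    linarith
  obtain ⟨c1, c2, c3, c4⟩ := Vale.Agent.P181.H539.cost_stmt k b n R N cells a lam eta hRn ha hlam hdes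
  obtain ⟨P, hP, hgt⟩ := Vale.Agent.P181.H539.fam_stmt1 k b n R N cells lam eta hN1 hRn hlam hsum hdes
  refine ⟨P, hP, ?_⟩
  have hnum := hN c1 c4 c3
  have hcut := Vale.Agent.P181.H539.cut_stmt a n R lam hRn hlam
  set Cc : ℕ := ((∑ i, eta i) + N - 1).choose (N - 1) with hCc
  have hCpos : 0 < Cc := by
    rw [hCc]
    apply Nat.choose_pos
    omega
  have h5 : gt n a lam ≤ (ex lam 0 + 1) ^ (a * R) * (a ^ cells * gt (n - R) a eta) :=
    hcut.trans (Nat.mul_le_mul_left _ c2)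
  have h6 : (gt n a lam : ℝ) ≤ ((ex lam 0 : ℝ) + 1) ^ (a * R) *
      ((a : ℝ) ^ cells * gt (n - R) a eta) := by exact_mod_cast h5
  have h7 : (gt (n - R) N eta : ℝ) ≤ (Cc : ℝ) * P := by exact_mod_cast hgt
  have hC0 : (0 : ℝ) < Cc := by exact_mod_cast hCpos
  have hex : 0 < Real.exp (2 * b) := Real.exp_pos _
  have h8 : (Cc : ℝ) * ((gt n a lam : ℝ) * Real.exp (2 * b)) ≤ (Cc : ℝ) * P := by
    calc (Cc : ℝ) * ((gt n a lam : ℝ) * Real.exp (2 * b))
        ≤ (Cc : ℝ) * ((((ex lam 0 : ℝ) + 1) ^ (a * R) *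
            ((a : ℝ) ^ cells * gt (n - R) a eta)) * Real.exp (2 * b)) := by gcongr
      _ = ((ex lam 0 : ℝ) + 1) ^ (a * R) * (a : ℝ) ^ cells * (Cc : ℝ) *
            (gt (n - R) a eta : ℝ) * Real.exp (2 * b) := by ring
      _ ≤ (gt (n - R) N eta : ℝ) := hnum
      _ ≤ _ := h7
  exact le_of_mul_le_mul_left h8 hC0

/-- **LB6s**: the lower bound for small degree, short class. -/
theorem lb6s (ε : ℝ) (hε : 0 < ε) (hε1 : ε ≤ 1 / 2) : ∀ᶠ a : ℕ in Filter.atTop, ∀ (k b n : ℕ)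
    (lam : Fin n → ℕ), Hyp2 ε a k b n lam → ∃ l, 1 ≤ l ∧ l ≤ n ∧
      ((k : ℝ) * b) ≤ (1 + Real.log a) * (l * ex lam (l - 1)) ∧
      ((l : ℝ) * (a : ℝ) ^ (2 * ε) ≤ (k : ℝ) ^ 2 →
        ∃ P : ℕ, Family k b n lam P ∧ (gt n a lam : ℝ) * Real.exp (2 * b) ≤ P) := by
  filter_upwards [Vale.Agent.P181.H411.par6_two ε hε hε1,
    Vale.Agent.P181.H921.num6_two ε hε, Filter.eventually_ge_atTop 1] with a hEa hNa ha k b n
    lam hyp
  obtain ⟨l, hl1, hln, hmass, hP⟩ := hEa k b n lam hyp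
  refine ⟨l, hl1, hln, hmass, fun hlk => ?_⟩
  obtain ⟨m, u, Y, R, x, h, G, P, La, wm, Nl, H, hN⟩ := hP hlk
  have hlam : Antitone lam := hyp.2.2.2.2.2.1
  obtain ⟨N, eta, h1, h2, h3⟩ := Vale.Agent.P181.H162.exists_design hlam H
  exact lb_one ha hyp (hN N h1 h2) h3 (hNa k b n lam hyp R N l _ eta (hN N h1 h2) hlk)

end Vale.Agent.P181.T8
end
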