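import Vale.Agent.P181.H403.Spec8
import Vale.Agent.P181.H699.Use6

set_option autoImplicit false

/-!
# P181, T8: LB8 from LB6s and LB9
-/

open Filter

namespace Vale.Agent.P181.T8

open Vale.Agent.P181.T4 Vale.Agent.P181.T7 Vale.Agent.P181.H280 Vale.Agent.P181.H463

/-- **(LB8s)** -/
theorem lb8_of (h9 : LB9) : LB8s := by
  intro ε hε hε1
  filter_upwards [lb6s ε hε hε1, h9 ε hε hε1, eventually_ge_atTop 1] with a h6 h9a ha k b n lam
    hyp hk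
  obtain ⟨l, hl1, hln, hmass, hP⟩ := h6 k b n lam hyp
  rcases le_total (l : ℝ) ((b : ℝ) ^ (1 / 2 + ε)) with hl | hl
  · have h1 : (l : ℝ) * (a : ℝ) ^ (2 * ε) ≤ (k : ℝ) ^ 2 := by
      calc (l : ℝ) * (a : ℝ) ^ (2 * ε) ≤ (b : ℝ) ^ (1 / 2 + ε) * (a : ℝ) ^ (2 * ε) := by gcongr
        _ = (a : ℝ) ^ (2 * ε) * (b : ℝ) ^ (1 / 2 + ε) := mul_comm _ _
        _ ≤ _ := hk
    obtain ⟨P, hfam, hP⟩ := hP h1
    refine hP.trans ?_
    exact_mod_cast Vale.Agent.P181.H699.use6 k b n P lam hfam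
  · exact h9a k b n lam hyp l hl1 hln hmass hl

end Vale.Agent.P181.T8
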