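import Vale.Agent.P181.T7.Spec
import Vale.Agent.P181.H403.LB6s

set_option autoImplicit false

/-!
# P181, T8: the statements for `b ≥ a ^ (4 / 3 + ε)`
-/

open Filter

namespace Vale.Agent.P181.T8

open Vale.Agent.P181.T4 Vale.Agent.P181.T7 Vale.Agent.P181.H280 Vale.Agent.P181.H463

/-- **(LB9)** the lower bound for a long length class (S6 with general degree `k`). -/
def LB9 : Prop := ∀ ε : ℝ, 0 < ε → ε ≤ 1 / 2 → ∀ᶠ a : ℕ in atTop, ∀ (k b n : ℕ)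
  (lam : Fin n → ℕ), Hyp2 ε a k b n lam → ∀ l : ℕ, 1 ≤ l → l ≤ n →
  ((k : ℝ) * b) ≤ (1 + Real.log a) * (l * ex lam (l - 1)) → (b : ℝ) ^ (1 / 2 + ε) ≤ l →
  (gt n a lam : ℝ) * Real.exp (2 * b) ≤ plethMult b k n lam

/-- **(LB8s)** the lower bound for degree `k ≥ a ^ ε * b ^ (1 / 4)`. -/
def LB8s : Prop := ∀ ε : ℝ, 0 < ε → ε ≤ 1 / 2 → ∀ᶠ a : ℕ in atTop, ∀ (k b n : ℕ)
  (lam : Fin n → ℕ), Hyp2 ε a k b n lam → (a : ℝ) ^ (2 * ε) * (b : ℝ) ^ (1 / 2 + ε) ≤ (k : ℝ) ^ 2 →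
  (gt n a lam : ℝ) * Real.exp (2 * b) ≤ plethMult b k n lam

/-- **(Case I)** with the threshold `a ^ (5 / 4)` (owner 699). -/
def CaseI8 : Prop := ∀ δ : ℝ, 0 < δ → δ ≤ 1 / 100 → ∀ᶠ a : ℕ in atTop, ∀ (b R : ℕ)
  (lam : Fin a → ℕ), b ≤ a ^ 2 → (a : ℝ) ^ (1 + 9 * δ) ≤ b → Antitone lam →
  ∑ i, lam i = a * b → (R : ℝ) ≤ (a : ℝ) ^ (2 * δ) → (a : ℝ) ^ (5 / 4 + 6 * δ) ≤ below R lam →
  (a : ℝ) ^ δ * ex lam R ≤ below R lam → plethMult a b a lam ≤ plethMult b a a lam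

/-- **(Case I)** with the threshold `a ^ (1 + θ)`. -/
def CaseIt (θ : ℝ) : Prop := ∀ δ : ℝ, 0 < δ → δ ≤ 1 / 100 → ∀ᶠ a : ℕ in atTop, ∀ (b R : ℕ)
  (lam : Fin a → ℕ), b ≤ a ^ 2 → (a : ℝ) ^ (1 + 9 * δ) ≤ b → Antitone lam →
  ∑ i, lam i = a * b → (R : ℝ) ≤ (a : ℝ) ^ (2 * δ) → (a : ℝ) ^ (1 + θ + 6 * δ) ≤ below R lam →
  (a : ℝ) ^ δ * ex lam R ≤ below R lam → plethMult a b a lam ≤ plethMult b a a lam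

/-- **(Case II)** many columns of length exactly `r`, `(r - 1) * t ≥ 1` (owner 503). -/
def CaseII8 : Prop := ∀ δ t : ℝ, 0 < δ → δ ≤ 1 / 100 → 0 < t → t ≤ 1 / 2 → ∀ᶠ a : ℕ in atTop,
  ∀ (b R r : ℕ) (lam : Fin a → ℕ), b ≤ a ^ 2 → (a : ℝ) ^ (1 + 9 * δ) ≤ b → Antitone lam →
  ∑ i, lam i = a * b → (R : ℝ) ≤ (a : ℝ) ^ (2 * δ) → (below R lam : ℝ) < (a : ℝ) ^ (1 + t + 6 * δ) →
  3 ≤ r → r ≤ R → 1 ≤ ((r : ℝ) - 1) * t →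
  (ex lam r : ℝ) + (a : ℝ) ^ (1 + t + 16 * δ) ≤ ex lam (r - 1) →
  plethMult a b a lam ≤ plethMult b a a lam

/-- **(Split)** -/
def Split8 : Prop := ∀ (δ θ t : ℝ) (j : ℕ), 0 < δ → δ ≤ 1 / 100 → 0 ≤ θ → θ ≤ t → 2 ≤ j →
  1 ≤ (j : ℝ) * t → ∀ᶠ a : ℕ in atTop, ∀ (b : ℕ) (lam : Fin a → ℕ), b ≤ a ^ 2 → Antitone lam →
  ∑ i, lam i = a * b → (a : ℝ) ^ (1 + t + 20 * δ) ≤ below j lam →
  (∃ R : ℕ, (R : ℝ) ≤ (a : ℝ) ^ (2 * δ) ∧ (a : ℝ) ^ (1 + θ + 6 * δ) ≤ below R lam ∧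
    (a : ℝ) ^ δ * ex lam R ≤ below R lam) ∨
  (∃ R r : ℕ, (R : ℝ) ≤ (a : ℝ) ^ (2 * δ) ∧ (below R lam : ℝ) < (a : ℝ) ^ (1 + θ + 6 * δ) ∧
    3 ≤ r ∧ r ≤ R ∧ 1 ≤ ((r : ℝ) - 1) * t ∧
    (ex lam r : ℝ) + (a : ℝ) ^ (1 + t + 16 * δ) ≤ ex lam (r - 1))

/-- **(F8)** for `b ≥ a ^ (1 + ε)`: `below j lam ≥ a ^ (1 + t + ε)` and `j * t ≥ 1`. -/
def F8 (t : ℝ) (j : ℕ) : Prop := ∀ ε : ℝ, 0 < ε → ∀ᶠ a : ℕ in atTop, ∀ b : ℕ,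
  (a : ℝ) ^ (1 + ε) ≤ b → ∀ lam : Fin a → ℕ, Antitone lam → ∑ i, lam i = a * b →
    (a : ℝ) ^ (1 + t + ε) ≤ below j lam → plethMult a b a lam ≤ plethMult b a a lam

theorem caseIt_quarter (h : CaseI8) : CaseIt (1 / 4) := by
  intro δ hδ hδ1
  filter_upwards [h δ hδ hδ1] with a ha b R lam h1 h2 h3 h4 h5 h6 h7
  refine ha b R lam h1 h2 h3 h4 h5 ?_ h7
  rwa [show (5 / 4 + 6 * δ : ℝ) = 1 + 1 / 4 + 6 * δ by ring]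

/-- **(F8)** from the cases. -/
theorem f8_of {θ t : ℝ} {j : ℕ} (h1 : CaseIt θ) (h2 : CaseII8) (hs : Split8) (hB : BigStmt)
    (hθ : 0 ≤ θ) (hθt : θ ≤ t) (ht0 : 0 < t) (ht : t ≤ 1 / 2) (hj : 2 ≤ j)
    (hjt : 1 ≤ (j : ℝ) * t) : F8 t j := by
  intro ε hε
  set δ : ℝ := min (ε / 20) (1 / 100) with hδ
  have hδ0 : 0 < δ := lt_min (by positivity) (by norm_num)
  have hδ1 : δ ≤ 1 / 100 := min_le_right _ _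
  have hδ2 : 20 * δ ≤ ε := by
    have := min_le_left (ε / 20) (1 / 100)
    rw [← hδ] at this
    linarith
  filter_upwards [h1 δ hδ0 hδ1, h2 δ t hδ0 hδ1 ht0 ht, hs δ θ t j hδ0 hδ1 hθ hθt hj hjt,
    Filter.eventually_ge_atTop 1] with a h1a h2a hsa ha b hb lam hlam hsum hD
  have ha1 : (1 : ℝ) ≤ a := by exact_mod_cast ha
  by_cases hb2 : b ≤ a ^ 2
  · have hb' : (a : ℝ) ^ (1 + 9 * δ) ≤ b :=
      le_trans (Real.rpow_le_rpow_of_exponent_le ha1 (by linarith)) hb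
    have hD' : (a : ℝ) ^ (1 + t + 20 * δ) ≤ below j lam :=
      le_trans (Real.rpow_le_rpow_of_exponent_le ha1 (by linarith)) hD
    rcases hsa b lam hb2 hlam hsum hD' with ⟨R, e1, e2, e3⟩ | ⟨R, r, e1, e2, e3, e4, e5, e6⟩
    · exact h1a b R lam hb2 hb' hlam hsum e1 e2 e3
    · refine h2a b R r lam hb2 hb' hlam hsum e1 (lt_of_lt_of_le e2 ?_) e3 e4 e5 e6
      exact Real.rpow_le_rpow_of_exponent_le ha1 (by linarith)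
  · apply hB
    have h5 : (a - 1) ^ 2 ≤ a ^ 2 := Nat.pow_le_pow_left (Nat.sub_le a 1) 2
    omega

end Vale.Agent.P181.T8
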